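import Vale.Agent.P057SH.Lab
import Vale.Agent.P057TE.Thb
import Vale.Agent.P057RG.Num
import Vale.Agent.P057PC.Top

/-!
Masses and tails of canonical systems in terms of the complexity.
-/

set_option linter.all false

open Matrix Finset
open scoped Real
open Vale.Agent.P267.H775 Vale.Agent.P057G Vale.Agent.P057PC Vale.Agent.P057TP

namespace Vale.Agent.P057SH

noncomputable section

theorem ms_const_le {L : Type} [Fintype L] [DecidableEq L] {G : Matrix L L ℝ} (hG : G.PosDef)
    (c : L → ℝ) : ms G (fun _ => c) ≤ ms G fun _ => 0 := by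
  unfold ms ng
  rw [tsum_div_const, tsum_div_const]
  exact div_le_div_of_nonneg_right (th_le_th_zero hG c) (vol_pos hG).le

theorem ms_tri_aux (n : ℕ) : ∀ (L : Type) [Fintype L] [DecidableEq L] (lv : L → ℕ)
    (G : Matrix L L ℝ) (p : (L → ℤ) → L → ℝ), (∀ l, lv l < n) → G.PosDef →
    (∀ l l', lv l ≠ lv l' → G l l' = 0) → Tri lv p → ms G p ≤ ms G fun _ => 0 := by
  induction n with
  | zero =>
    intro L _ _ lv G p h _ _ _
    have : IsEmpty L := ⟨fun l => Nat.not_lt_zero _ (h l)⟩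
    rw [ms_empty, ms_empty]
  | succ n ih =>
    intro L _ _ lv G p h hG ho hp
    have hs : Spl (fun l => lv l = n) p fun y => rs _ (p (glue (fun l => lv l = n) 0 y)) :=
      fun z l => hp l _ _ fun j hj => by
        rw [glue_neg (X := fun _ => ℤ) _ _ (by have := h l; omega)]; rfl
    have ho' : Ort G fun l => lv l = n := fun i j hi hj => ho i j fun e => hj (e.symm.trans hi)
    have h1 := Ex_split hp hG ho' hs (f := fun _ => 1) (C := 1) (by simp)
    have h2 := norm_Ex_le (hs.tri hp) (posDef_bk hG fun l => ¬ lv l = n)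
      (f := Fx G (fun l => lv l = n) p fun _ => 1)
      (C := ms (bk G fun l => lv l = n) fun _ => 0) fun y => by
        have : pf (fun l => lv l = n) p y = fun _ => pf (fun l => lv l = n) p y 0 := by
          funext x l
          exact tri_pf hp _ y l _ _ fun j hj => absurd (j.2.trans l.2.symm) hj.ne
        rw [Fx_one, Complex.norm_real, Real.norm_of_nonneg (ms_nonneg _ _), this]
        exact ms_const_le (posDef_bk hG _) _
    rw [← h1, Ex_one, Complex.norm_real, Real.norm_of_nonneg (ms_nonneg _ _)] at h2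
    rw [ms_zero_split hG ho']
    exact h2.trans (mul_le_mul_of_nonneg_left (ih _ (fun l => lv l.1) _ _
      (fun l => lt_of_le_of_ne (Nat.le_of_lt_succ (h l)) l.2) (posDef_bk hG _)
      (fun l l' e => ho _ _ e) (hs.tri hp)) (ms_nonneg _ _))

variable {L : Type} [Fintype L] [DecidableEq L] {lv : L → ℕ} {G : Matrix L L ℝ}
  {p : (L → ℤ) → L → ℝ}

/-- the centred system has the largest mass -/
theorem ms_tri_le (hG : G.PosDef) (ho : ∀ l l', lv l ≠ lv l' → G l l' = 0) (hp : Tri lv p) :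
    ms G p ≤ ms G fun _ => 0 :=
  ms_tri_aux (univ.sup lv + 1) L lv G p (fun l => Nat.lt_succ_of_le (le_sup (mem_univ l))) hG ho hp

theorem ng_tail (hG : G.PosDef) {r : ℝ} {v : L → ℝ} (h : r ≤ qq G v) :
    ng G v ≤ Real.exp (Fintype.card L - r) * ng ((1 / 2 : ℝ) • G) v := by
  have h1 : (√(1 / 2 : ℝ))⁻¹ ^ Fintype.card L ≤ Real.exp (Fintype.card L) := by
    rw [one_div, Real.sqrt_inv, inv_inv, ← mul_one (Fintype.card L : ℝ), Real.exp_nat_mul]
    refine pow_le_pow_left₀ (Real.sqrt_nonneg _) (Real.sqrt_le_iff.2 ⟨(Real.exp_pos _).le, ?_⟩) _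
    nlinarith [Real.add_one_le_exp (1 : ℝ)]
  have h2 : gs G v ≤ Real.exp (-r) * gs ((1 / 2 : ℝ) • G) v := by
    unfold gs
    rw [← Real.exp_add, qq_smul_mat]
    refine Real.exp_le_exp.2 ?_
    nlinarith [Real.two_le_pi, qq_nonneg hG.posSemidef v]
  have h3 := vol_pos hG
  have h4 : (0 : ℝ) < (√(1 / 2 : ℝ))⁻¹ ^ Fintype.card L := by positivity
  rw [ng, ng, vol_smul (by norm_num), sub_eq_add_neg, Real.exp_add, ← mul_div_assoc,
    div_le_div_iff₀ h3 (mul_pos h4 h3), ← mul_assoc, mul_assoc (Real.exp _), mul_comm (gs G v)]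
  exact mul_le_mul_of_nonneg_right (mul_le_mul h1 h2 (gs_pos _ _).le (Real.exp_pos _).le) h3.le

theorem ms_half (hG : G.PosDef) : ms ((1 / 2 : ℝ) • G) (fun _ => 0) ≤ ms G fun _ => 0 := by
  have h2 : ((1 / 2 : ℝ) • G).PosDef := hG.smul (by norm_num)
  rw [ms_zero hG, ms_zero h2]
  refine th_inv_mono h2 hG (fun x => ?_) 0
  rw [qq_smul_mat]
  linarith [qq_nonneg hG.posSemidef x]

/-- the tail of a triangular system -/
theorem tail_le (hG : G.PosDef) (ho : ∀ l l', lv l ≠ lv l' → G l l' = 0) (hp : Tri lv p) (r : ℝ)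
    {f : (L → ℤ) → ℝ} {B : ℝ} (hB : 0 ≤ B) (hf : ∀ z, |f z| ≤ B)
    (h0 : ∀ z, qq G (toR z - p z) ≤ r → f z = 0) :
    |∑' z, ng G (toR z - p z) * f z| ≤ B * Real.exp (Fintype.card L - r) * ms G fun _ => 0 := by
  have h2 : ((1 / 2 : ℝ) • G).PosDef := hG.smul (by norm_num)
  have h3 := (ms_tri_le h2 (fun l l' e => by simp [ho l l' e]) hp).trans (ms_half hG)
  refine le_trans ?_ (mul_le_mul_of_nonneg_left h3 (by positivity))
  rw [← Real.norm_eq_abs]
  refine tsum_of_norm_bounded ((summable_ng hp h2).hasSum.mul_left _) fun z => ?_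
  rw [Real.norm_eq_abs, abs_mul, abs_of_nonneg (ng_nonneg _ _), mul_comm, mul_assoc]
  by_cases h : qq G (toR z - p z) ≤ r
  · rw [h0 z h, abs_zero, zero_mul]
    exact mul_nonneg hB (mul_nonneg (Real.exp_pos _).le (ng_nonneg _ _))
  · exact mul_le_mul (hf z) (ng_tail hG (not_le.1 h).le) (ng_nonneg _ _) hB

section cx

variable {C W S : Type} [Fintype W] [DecidableEq W] [Fintype S] {T : Tow} {cl : W → C}
  {m s : ℕ} {N : ℝ}

theorem gam_blk (hT : T.Ok s N) (l l' : Lb T cl S m) (h : T.lv l.cd ≠ T.lv l'.cd) :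
    Gam T cl S m l l' = 0 := lab_eq_zero fun _ _ => hT.blk _ _ h

/-- the possible shapes of a label -/
def shp (W S : Type) [Fintype W] [DecidableEq W] [Fintype S] (s : ℕ) :
    Finset (Finset W × Option S × ℕ) :=
  (univ.filter fun A : Finset W => A.card ≤ s) ×ˢ univ ×ˢ Icc 1 s

theorem card_faces (s : ℕ) :
    (univ.filter fun A : Finset W => A.card ≤ s).card ≤ (Fintype.card W + 1) ^ s := by
  have h : (univ.filter fun A : Finset W => A.card ≤ s) ⊆
      (univ : Finset (Fin s → Option W)).image fun f => (univ.image f).eraseNone := by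
    intro A hA
    have h1 := (mem_filter.1 hA).2
    refine mem_image.2 ⟨fun i => if h : (i : ℕ) < A.card then some (A.equivFin.symm ⟨i, h⟩).1
      else none, mem_univ _, ?_⟩
    ext w
    simp only [mem_eraseNone, mem_image, mem_univ, true_and]
    refine ⟨fun ⟨i, hi⟩ => ?_, fun hw => ⟨⟨A.equivFin ⟨w, hw⟩, (Fin.is_lt _).trans_le h1⟩, ?_⟩⟩
    · split_ifs at hi with k
      rw [← Option.some.inj hi]; exact Subtype.prop _
    · simp
  simpa using (card_le_card h).trans card_image_le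

theorem card_shp {X : ℝ} (h : (Fintype.card W + Fintype.card S : ℝ) ≤ X) :
    ((shp W S s).card : ℝ) ≤ (X + 1) ^ (s + 1) * s := by
  have h1 : ((univ.filter fun A : Finset W => A.card ≤ s).card : ℝ) ≤ (Fintype.card W + 1) ^ s := by
    exact_mod_cast card_faces s
  have h2 : (0 : ℝ) ≤ Fintype.card W := Nat.cast_nonneg _
  have h3 : (0 : ℝ) ≤ Fintype.card S := Nat.cast_nonneg _
  rw [shp, card_product, card_product, card_univ, Fintype.card_option, Nat.card_Icc, pow_succ,
    mul_assoc]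
  push_cast
  refine mul_le_mul (h1.trans (pow_le_pow_left₀ (by linarith) (by linarith) _)) ?_ (by positivity)
    (pow_nonneg (by linarith) _)
  exact mul_le_mul_of_nonneg_right (by linarith) (Nat.cast_nonneg _)

theorem mem_shp (hT : T.Ok s N) (l : Lb T cl S m) : (l.fc, l.bs, T.lv l.cd) ∈ shp W S s := by
  simp [shp, l.card_le.trans (hT.le _), hT.le, Nat.succ_le_of_lt (hT.pos _)]

theorem card_lb (hT : T.Ok s N) {X : ℝ} (hX : ∀ e, 1 ≤ e → T.dm e ≤ X) :
    (Fintype.card (Lb T cl S m) : ℝ) ≤ (shp W S s).card * X := by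
  classical
  rw [← card_univ, card_eq_sum_card_fiberwise fun l _ => mem_shp hT l, ← nsmul_eq_mul, Nat.cast_sum]
  refine sum_le_card_nsmul _ _ _ fun x hx => le_trans ?_ (hX x.2.2 ?_)
  · refine Nat.cast_le.2 (card_le_card_of_injOn Lb.cd (fun l hl => ?_) fun l hl l' hl' e => ?_)
    · simpa using congrArg (·.2.2) (mem_filter.1 hl).2
    · have := (mem_filter.1 hl).2.trans (mem_filter.1 hl').2.symm
      exact Lb.ext' e (congrArg (·.1) this) (congrArg (·.2.1) this)
  · simp only [shp, mem_product, mem_Icc] at hx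
    exact hx.2.2.1

theorem ms_gam (hT : T.Ok s N) {B : ℝ} (h1 : 1 ≤ B)
    (hB : ∀ e, 1 ≤ e → ms (bk T.G fun a => T.lv a = e) (fun _ => 0) ≤ B) :
    ms (Gam T cl S m) (fun _ => 0) ≤ B ^ (shp W S s).card := by
  classical
  refine ms_zero_le _ _ (fun l => (l.fc, l.bs, T.lv l.cd)) _ (P057GH.pd_Gam hT.pd cl S m)
    (fun l l' h => lab_eq_zero fun a b => hT.blk _ _ fun e => h (by rw [a, b, e]))
    (mem_shp hT) fun x hx => ?_
  rcases isEmpty_or_nonempty {l : Lb T cl S m // (l.fc, l.bs, T.lv l.cd) = x} with h | ⟨⟨l, rfl⟩⟩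
  · rwa [ms_empty]
  refine le_trans (le_of_eq ?_) (hB _ (hT.pos l.cd))
  let e : {k : Lb T cl S m // (k.fc, k.bs, T.lv k.cd) = (l.fc, l.bs, T.lv l.cd)} ≃
      {a // T.lv a = T.lv l.cd} :=
    ⟨fun k => ⟨k.1.cd, congrArg (·.2.2) k.2⟩, fun b => ⟨mv l b, Prod.ext rfl (Prod.ext rfl b.2)⟩,
      fun k => Subtype.ext (Lb.ext' rfl (congrArg (·.1) k.2).symm (congrArg (·.2.1) k.2).symm),
      fun _ => rfl⟩
  refine ms_equiv e (fun i j => ?_) fun _ _ => rfl
  have := i.2.trans j.2.symm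
  exact lab_pos T.G (congrArg (·.1) this) (congrArg (·.2.1) this)

end cx

end

end Vale.Agent.P057SH
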