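import Vale.Agent.P057SH.Lin
import Vale.Agent.P057TP.Alg3
import Vale.Agent.P057GH.Pb

/-!
Matrices between coordinates act on labels face by face.
-/

set_option linter.all false

open Matrix Finset
open Vale.Agent.P267.H775 Vale.Agent.P057G Vale.Agent.P057PC Vale.Agent.P057ST Vale.Agent.P057TP
open Vale.Agent.P057MA (Ort)

namespace Vale.Agent.P057SH

noncomputable section

variable {C W S R : Type} [CommRing R] {T T' T'' : Tow} {cl : W → C} {m : ℕ}

open Classical in
/-- a matrix on coordinates acting on labels -/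
def lab (cl : W → C) (S : Type) (m : ℕ) (X : Matrix T.ι T'.ι R) :
    Matrix (Lb T cl S m) (Lb T' cl S m) R :=
  Matrix.of fun l l' => if l.fc = l'.fc ∧ l.bs = l'.bs then X l.cd l'.cd else 0

theorem lab_pos (X : Matrix T.ι T'.ι R) {l : Lb T cl S m} {l' : Lb T' cl S m} (h1 : l.fc = l'.fc)
    (h2 : l.bs = l'.bs) : lab cl S m X l l' = X l.cd l'.cd := if_pos ⟨h1, h2⟩

theorem lab_eq_zero {X : Matrix T.ι T'.ι R} {l : Lb T cl S m} {l' : Lb T' cl S m}
    (h : l.fc = l'.fc → l.bs = l'.bs → X l.cd l'.cd = 0) : lab cl S m X l l' = 0 := by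
  classical
  exact ite_eq_right_iff.2 fun k => h k.1 k.2

theorem gam_eq (T : Tow) : Gam T cl S m = lab cl S m T.G := rfl

/-- the label with the same face and another coordinate of the same level -/
def mv (l : Lb T cl S m) (b : {b // T'.lv b = T.lv l.cd}) : Lb T' cl S m :=
  ⟨(b.1, l.fc, l.bs), by
    have h := l.2
    refine ⟨b.2.symm ▸ h.1, h.2.1, ?_⟩
    simp only [b.2]
    exact h.2.2⟩

theorem lab_tr (X : Matrix T.ι T'.ι R) : lab cl S m Xᵀ = (lab cl S m X)ᵀ := by
  ext l l'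
  exact @if_congr _ _ _ (_) (_) _ _ _ _ (and_congr eq_comm eq_comm) rfl rfl

theorem lab_add (X Y : Matrix T.ι T'.ι R) :
    lab cl S m (X + Y) = lab cl S m X + lab cl S m Y := by
  ext l l'
  simp only [lab, of_apply, Matrix.add_apply]
  split_ifs <;> simp

theorem lab_sub (X Y : Matrix T.ι T'.ι R) :
    lab cl S m (X - Y) = lab cl S m X - lab cl S m Y := by
  ext l l'
  simp only [lab, of_apply, Matrix.sub_apply]
  split_ifs <;> simp

theorem lab_zero : lab cl S m (0 : Matrix T.ι T'.ι R) = 0 := by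
  ext l l'; simp [lab]

theorem lab_one : lab cl S m (1 : Matrix T.ι T.ι R) = 1 := by
  classical
  ext l l'
  by_cases h : l = l'
  · subst h; simp [lab]
  · rw [one_apply_ne h]
    refine ite_eq_right_iff.2 fun k => one_apply_ne fun e => h (Lb.ext' e k.1 k.2)

theorem lab_mR (X : Matrix T.ι T'.ι ℤ) : mR (lab cl S m X) = lab cl S m (mR X) := by
  ext l l'
  simp only [lab, mR, of_apply, map_apply]
  split_ifs <;> simp

variable [Fintype W] [Fintype S]

theorem lab_mulVec {X : Matrix T.ι T'.ι R} (hX : Ort T.lv T'.lv X) (x : Lb T' cl S m → R)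
    (l : Lb T cl S m) : (lab cl S m X *ᵥ x) l = ∑ b, X l.cd b.1 * x (mv l b) := by
  classical
  refine (Fintype.sum_of_injective (mv l) (fun b b' e => Subtype.ext (congrArg Lb.cd e)) _ _
    (fun l' hl => ?_) fun b => ?_).symm
  · refine mul_eq_zero_of_left (ite_eq_right_iff.2 fun k => ?_) _
    by_contra h
    exact hl ⟨⟨l'.cd, (hX _ _ h).symm⟩, Lb.ext' rfl k.1 k.2⟩
  · exact congrArg (· * _) (if_pos ⟨rfl, rfl⟩).symm

theorem sum_lv {f : T'.ι → R} {e : ℕ} (h : ∀ b, f b ≠ 0 → T'.lv b = e) :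
    ∑ b : {b // T'.lv b = e}, f b = ∑ b, f b :=
  Fintype.sum_of_injective _ Subtype.val_injective _ _
    (fun b hb => by_contra fun k => hb ⟨⟨b, h b k⟩, rfl⟩) fun _ => rfl

theorem lab_mul {X : Matrix T.ι T'.ι R} (hX : Ort T.lv T'.lv X) (Y : Matrix T'.ι T''.ι R) :
    lab cl S m (X * Y) = lab cl S m X * lab cl S m Y := by
  ext l l'
  refine Eq.trans ?_ (lab_mulVec hX (fun k => lab cl S m Y k l') l).symm
  by_cases h : l.fc = l'.fc ∧ l.bs = l'.bs
  · refine (if_pos h).trans ((sum_lv fun b hb => (hX _ _ (left_ne_zero_of_mul hb)).symm).symm.trans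
      (sum_congr rfl fun b _ => congrArg _ (if_pos h).symm))
  · exact (if_neg h).trans (sum_eq_zero fun b _ => mul_eq_zero_of_right _ (if_neg h)).symm

theorem lab_inv {X : Matrix T.ι T.ι ℝ} (hX : Ort T.lv T.lv X) (hd : IsUnit X.det) :
    lab cl S m X⁻¹ = (lab cl S m X)⁻¹ :=
  (inv_eq_right_inv (by rw [← lab_mul hX, mul_nonsing_inv _ hd, lab_one])).symm

theorem lab_alt [DecidableEq W] {X : Matrix T.ι T'.ι R} (hX : Ort T.lv T'.lv X)
    (x : Lb T' cl S m → R) (l : Lb T cl S m) :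
    (lab cl S m X *ᵥ x) l = ∑ b, X l.cd b * altL l.fc (lift x l.bs b) := by
  rw [lab_mulVec hX, ← sum_lv fun b hb => (hX _ _ (left_ne_zero_of_mul hb)).symm]
  exact sum_congr rfl fun b _ => congrArg _ (altL_lift x (mv l b)).symm

end

end Vale.Agent.P057SH
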