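import Mathlib.Analysis.SpecialFunctions.Log.Basic

/-!
The numerical inequalities for the sheet.
-/

set_option linter.all false

open Real

namespace Vale.Agent.P057SH

theorem pw_le {X Y : ℝ} (h0 : 0 ≤ X) (h : X ≤ exp Y) (n : ℕ) : X ^ n ≤ exp (n * Y) := by
  rw [exp_nat_mul]; exact pow_le_pow_left₀ h0 h n

/-- the inequalities between the parameters -/
structure Nm (a d c : ℕ) (X Z J Y : ℝ) : Prop where
  n1 : 2 ≤ X ^ (a + 2)
  n2 : 40 * exp (-J ^ 2) * X ^ (a + 2) * exp J * X ≤ exp (-J)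
  n3 : 8 * exp J * exp ((Z ^ 2) ^ a) ^ 2 * exp (-((X ^ (a + 2)) ^ 2 / 3)) ≤ exp (-X)
  n4 : exp (J + 4 * (J + 1) ^ 2) ^ 2 * ((Z ^ 2) ^ a * exp (-J ^ c) ^ 2) ≤ exp (-J ^ 2) ^ 2
  n5 : (exp Y + X ^ d) ^ 2 ≤ exp (Y ^ 2)
  n6 : X ^ d + X ^ (a + 2) + 1 ≤ X ^ c
  n7 : exp (-X ^ (2 * a + 2)) ≤ exp (-X) / (2 * exp ((Z ^ 2) ^ a))
  n8 : exp (-Z ^ c) ≤ 1 / (2 * exp ((Z ^ 2) ^ a)) / 2
  n9 : exp (-J ^ 2) ^ 2 ≤ 1 / (J + 1)

theorem nm {a d c : ℕ} {X Z J Y : ℝ} (hc : 2 * a + 2 * d + 60 ≤ c) (hd : a + 2 ≤ d)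
    (h1 : (c : ℝ) ≤ Y) (h2 : Y ≤ J) (h3 : J ≤ Z) (h4 : Z ≤ X) (h5 : X ≤ exp Y) :
    Nm a d c X Z J Y := by
  have c1 : (2 * a + 2 * d + 60 : ℝ) ≤ Y := le_trans (by exact_mod_cast hc) h1
  have a0 : (0 : ℝ) ≤ a := Nat.cast_nonneg a
  have d0 : (0 : ℝ) ≤ d := Nat.cast_nonneg d
  have X1 : 1 ≤ X := by linarith
  have Z1 : 1 ≤ Z := by linarith
  have p : ∀ n : ℕ, X ^ n ≤ exp (n * J) := pw_le (by linarith) (h5.trans (exp_le_exp.2 h2))
  have e : ∀ {t x : ℝ}, t ≤ x → t ≤ exp x := fun {t x} h => by linarith [add_one_le_exp x]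
  have z1 : (Z ^ 2) ^ a ≤ X ^ (2 * a) := by
    rw [← pow_mul]; exact pow_le_pow_left₀ (by linarith) h4 _
  have z2 : 1 ≤ X ^ (2 * a) := one_le_pow₀ X1
  refine ⟨le_trans (by linarith) (le_self_pow₀ X1 (by omega)), ?_, ?_, ?_, ?_, ?_, ?_, ?_, ?_⟩
  · calc _ = 40 * X ^ (a + 3) * (exp (-J ^ 2) * exp J) := by ring
      _ ≤ exp J * exp ((a + 3 : ℕ) * J) * (exp (-J ^ 2) * exp J) := by
        gcongr
        exacts [e (by linarith), p _]
      _ ≤ _ := by
        simp only [← exp_add]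
        refine exp_le_exp.2 ?_
        push_cast; nlinarith
  · calc _ ≤ exp X * exp X * exp (X ^ (2 * a)) ^ 2 * exp (-((X ^ (a + 2)) ^ 2 / 3)) := by
          gcongr
          exacts [e (by linarith), by linarith]
      _ ≤ _ := by
        simp only [← exp_add, ← exp_nat_mul]
        refine exp_le_exp.2 ?_
        have : 9 * X + 6 ≤ X ^ 4 := by nlinarith [pow_le_pow_right₀ X1 (show 2 ≤ 4 by omega)]
        rw [show (X ^ (a + 2)) ^ 2 = X ^ (2 * a) * X ^ 4 by ring]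
        push_cast; nlinarith
  · calc _ ≤ exp (J + 4 * (J + 1) ^ 2) ^ 2 * (exp ((2 * a : ℕ) * J) * exp (-J ^ 3) ^ 2) := by
          gcongr
          exacts [z1.trans (p _), by linarith, by omega]
      _ ≤ _ := by
        simp only [← exp_add, ← exp_nat_mul]
        refine exp_le_exp.2 ?_
        push_cast
        nlinarith [mul_le_mul_of_nonneg_right (show 60 ≤ J by linarith) (sq_nonneg J)]
  · have q1 := pw_le (by linarith) h5 d
    have q2 : exp Y ≤ exp (d * Y) := exp_le_exp.2 (le_mul_of_one_le_left (by linarith)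
      (by exact_mod_cast (show 1 ≤ d by omega)))
    calc _ ≤ (exp Y * exp (d * Y)) ^ 2 := by
          gcongr
          nlinarith [e (show 2 ≤ Y by linarith), exp_pos (d * Y)]
      _ ≤ _ := by
        simp only [← exp_add, ← exp_nat_mul]
        refine exp_le_exp.2 ?_
        push_cast; nlinarith
  · have q1 := pow_le_pow_right₀ X1 hd
    have q2 : 1 ≤ X ^ d := one_le_pow₀ X1
    have q3 := pow_le_pow_right₀ X1 (show d + 1 ≤ c by omega)
    rw [pow_succ] at q3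
    nlinarith
  · rw [le_div_iff₀ (by positivity)]
    calc _ ≤ exp (-X ^ (2 * a + 2)) * (exp 2 * exp (X ^ (2 * a))) := by
          gcongr
          exact e le_rfl
      _ ≤ _ := by
        simp only [← exp_add]
        refine exp_le_exp.2 ?_
        rw [pow_add]; nlinarith [mul_le_mul_of_nonneg_right (show 60 ≤ X by linarith) (by linarith : 0 ≤ X)]
  · rw [div_div, le_div_iff₀ (by positivity)]
    have q1 := pow_le_pow_right₀ Z1 (show 2 * a + 1 ≤ c by omega)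
    have q2 : 1 ≤ (Z ^ 2) ^ a := one_le_pow₀ (one_le_pow₀ Z1)
    rw [pow_succ, pow_mul] at q1
    calc _ = 4 * (exp (-Z ^ c) * exp ((Z ^ 2) ^ a)) := by ring
      _ ≤ exp 4 * (exp (-Z ^ c) * exp ((Z ^ 2) ^ a)) := by
        gcongr
        exact e le_rfl
      _ ≤ _ := by
        simp only [← exp_add]
        refine exp_le_one_iff.2 ?_
        nlinarith
  · rw [le_div_iff₀ (by linarith), ← exp_nat_mul]
    refine (mul_le_mul_of_nonneg_left (add_one_le_exp J) (exp_pos _).le).trans ?_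
    rw [← exp_add]
    refine exp_le_one_iff.2 ?_
    push_cast; nlinarith

end Vale.Agent.P057SH
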