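import Vale.Agent.P057SH.Aux1
import Vale.Agent.P057SH.Num
import Vale.Agent.P057NA.Wrap
import Vale.Agent.P057RG.Up

/-!
A cut along one pinned direction followed by a narrowing.
-/

set_option linter.all false

open Matrix Finset
open scoped Real
open Vale.Agent.P267.H775 Vale.Agent.P057G Vale.Agent.P057PC Vale.Agent.P057ST Vale.Agent.P057TP
open Vale.Agent.P057MA (Ort)

namespace Vale.Agent.P057SH

noncomputable section

variable {C W S : Type} {T : Tow} {cl : W → C} {m s j : ℕ} {N : ℝ} {lam : ℕ → ℝ}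
  {F : Frame T j} {p : F.A → MvPolynomial F.ι ℤ}

/-- the sheet is a morphism after a slight narrowing of its level -/
theorem mor_cut (h : F.Ok) (hl : ∀ e, 1 ≤ lam e) {i : ℕ} (hi : j < i)
    (hh : ∀ a, (F.psi p a).IsWeightedHomogeneous F.lv (T.lv a))
    (hy : ∀ y, (F.tow p).ps y = F.B *ᵥ T.ps (ap (F.psi p) y))
    (he : ∀ y, toR (F.tow p).el ⬝ᵥ y = toR T.el ⬝ᵥ ap (F.psi p) y)
    (hb : ∀ y, T.Ball j (ap (F.psi p) y) →
      (lam j)⁻¹ + qq F.GA (F.D *ᵥ T.ps (ap (F.psi p) y)) ≤ 1) :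
    Mor i ((F.tow p).nar lam) T (F.psi p) := by
  refine ⟨fun a _ => hh a, fun (y : F.ι → ℝ) k => ?_, fun _ => he⟩
  have k1 : ∀ e, e < i → (F.tow p).ln e y ≤ (lam e)⁻¹ := fun e k1 => by
    rw [← one_div, le_div_iff₀' (one_pos.trans_le (hl e))]
    exact (ln_nar (F.tow p) lam e y).symm.trans_le (k e k1)
  have k2 : ∀ e, e < i → j ≠ e → T.ln e (ap (F.psi p) y) ≤ 1 := fun e k2 k3 => by
    rw [ln_cut h (hy y)]
    simp only [if_neg k3]
    rw [show (fun _ => (0 : ℝ)) = 0 from rfl, qq_zero, add_zero]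
    exact (k1 e k2).trans (inv_le_one_of_one_le₀ (hl e))
  intro e k3
  by_cases k4 : j = e
  · subst k4
    refine (ln_cut h (hy y) j).trans_le ?_
    simp only [if_true]
    linarith [k1 j k3, hb y fun e k5 => k2 e (k5.trans hi) k5.ne']
  · exact k2 e k3 k4

theorem up_cut (hT : T.Ok0 s) (h : F.Ok) (h0 : (F.tow p).Ok0 s) (h1 : 1 ≤ j)
    (hl : ∀ e, e ≠ j → lam e = 1) (hm : Mor (j + 1) ((F.tow p).nar lam) T (F.psi p))
    (hX : ∀ x : {x // T.lv x ≠ j}, F.psi p x = MvPolynomial.X (F.r x).1)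
    (hy : ∀ y, (F.tow p).ps y = F.B *ᵥ T.ps (ap (F.psi p) y)) :
    Up (j + 1) ((F.tow p).nar lam) T := by
  have n : ∀ {i}, j + 1 ≤ i → i ≠ j := fun k => by omega
  let e : {a // j + 1 ≤ T.lv a} ≃ {a // j + 1 ≤ F.lv a} :=
    ⟨fun a => ⟨F.r ⟨a, n a.2⟩, (h.rl _).symm ▸ a.2⟩, fun b => ⟨F.r.symm ⟨b, n b.2⟩, by
      rw [← h.rl, Equiv.apply_symm_apply]; exact b.2⟩,
      fun a => Subtype.ext (congrArg Subtype.val (F.r.symm_apply_apply ⟨a, n a.2⟩) :),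
      fun a => Subtype.ext (congrArg Subtype.val (F.r.apply_symm_apply ⟨a, n a.2⟩) :)⟩
  refine ⟨_, e, hm, fun a => h.rl ⟨a, n a.2⟩, fun a => hX ⟨a, n a.2⟩, fun a y => ?_,
    fun a b => ?_, fun a => (h0.el1 _ ?_).trans (hT.el1 _ ?_).symm⟩
  · have k := congrFun (hy y) (F.r ⟨a, n a.2⟩)
    simp only [mulVec, dotProduct, h.rB, ite_mul, one_mul, zero_mul, sum_ite_eq', mem_univ,
      if_true] at k
    have k2 : ap (F.psi p) y a = y (F.r ⟨a, n a.2⟩).1 :=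
      (congrArg _ (hX ⟨a, n a.2⟩)).trans (MvPolynomial.aeval_X _ _)
    exact sub_right_injective (k.trans (congrArg (· - _) k2))
  · exact (congrArg (· * _) (hl _ (n (e a).2))).trans ((one_mul _).trans (h.rG ⟨a, _⟩ ⟨b, _⟩))
  · have := (e a).2; change F.lv (e a) ≠ 1; omega
  · have := a.2; omega

variable [Fintype W] [DecidableEq W] [Fintype S]

theorem nrm_nar (h0 : T.Ok0 s) (hl : ∀ e, 1 ≤ lam e) {Z : Sys T W S} {x : Lb T cl S m → ℝ} {r : ℝ}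
    (hr : 0 ≤ r) (hx : qq (Gam T cl S m) x ≤ r ^ 2)
    (h : ∀ z l, (Z.nar lam x).pr cl m z l = Z.pr cl m z l + x l) (z : Lb T cl S m → ℤ) :
    Z.nrm cl m z ≤ (Z.nar lam x).nrm cl m z + r := by
  have pG := P057GH.pd_Gam h0.pd cl S m
  have e1 : Z.ps cl m z = (fun l : Lb T cl S m => (Z.nar lam x).ps cl m z l) + x := funext fun l =>
    eq_add_of_sub_eq ((sub_sub _ _ _).trans (congrArg (toR z l - ·) (h (toR z) l).symm))
  rw [Sys.nrm, e1]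
  refine (sqrt_qq_add pG _ _).trans (add_le_add (Real.sqrt_le_sqrt ?_)
    (Real.sqrt_le_iff.2 ⟨hr, hx⟩))
  rw [P057NA.Gam_nar]
  exact P057NA.le_sc pG (gam_blk0 h0) (fun _ => hl _) _

theorem le_of_pyth {ι : Type} [Fintype ι] {G : Matrix ι ι ℝ} (hG : G.PosDef) {u v x : ι → ℝ}
    {a b r δ : ℝ} (h0 : 0 ≤ b) (hr : 0 ≤ r) (hδ : 0 ≤ δ) (h : a ^ 2 = b ^ 2 + qq G (u + v))
    (h1 : qq G (u + x) ≤ r ^ 2) (h2 : qq G (v - x) ≤ δ ^ 2) : a ≤ b + r + δ := by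
  have e3 := sqrt_qq_add hG (u + x) (v - x)
  rw [add_add_sub_cancel] at e3
  have e4 := Real.sqrt_le_iff.1 (e3.trans
    (add_le_add (Real.sqrt_le_iff.2 ⟨hr, h1⟩) (Real.sqrt_le_iff.2 ⟨hδ, h2⟩)))
  exact le_of_sq_le_sq (by nlinarith [e4.2, mul_nonneg h0 e4.1]) (by linarith)

theorem exists_lam (j : ℕ) {D X : ℝ} (h : 1 ≤ D) (hX : D ≤ X) : ∃ lam : ℕ → ℝ, (∀ e, 1 ≤ lam e) ∧
    (∀ e, e ≠ j → lam e = 1) ∧ (lam j)⁻¹ + 1 / (X + 1) ≤ 1 ∧
    (D - 1) * Real.log (lam j) / 2 ≤ 1 := by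
  have h1 : 0 < 1 / D := by positivity
  refine ⟨fun e => if e = j then 1 + 1 / D else 1, fun e => by
    beta_reduce; split_ifs <;> linarith,
    fun e k => if_neg k, ?_, ?_⟩ <;> simp only [if_true]
  · rw [show (1 + 1 / D)⁻¹ = 1 - 1 / (D + 1) by field_simp; ring]
    linarith [one_div_le_one_div_of_le (by linarith : 0 < D + 1) (add_le_add_left hX 1)]
  · have e2 := mul_le_mul (show D - 1 ≤ D by linarith) (Real.log_le_sub_one_of_pos
      (show 0 < 1 + 1 / D by linarith)) (Real.log_nonneg (by linarith)) (by linarith)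
    rw [add_sub_cancel_left, mul_one_div_cancel (by linarith)] at e2
    linarith

section lad

variable {c : ℕ} {P : ℕ → ℝ}

theorem lad_pw (h : Lad s N c P) {n b : ℕ} (h1 : 2 ≤ n) (h2 : n ≤ c) (h3 : b ≤ c) :
    Lad s N b fun e => P e ^ n :=
  P057RG.lad_mono (P057RG.lad_pow h (Nat.one_le_cast.2 (by omega)) (a := fun _ => n)
    (fun _ => le_rfl) (fun _ => h1) (Nat.cast_le.2 h2)) (Nat.cast_le.2 h3)

theorem two_le (h : Lad s N c P) (hc : 2 ≤ c) (e : ℕ) {n : ℕ} (k : 2 ≤ n) :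
    2 * P e ≤ P e ^ n ∧ P e ≤ P e ^ n := by
  have h1 : 2 ≤ P e := le_trans (by exact_mod_cast hc) (h.big e)
  have h2 : 2 * P e ≤ P e ^ n := le_trans (by nlinarith) (pow_le_pow_right₀ (by linarith) k)
  exact ⟨h2, by linarith⟩

theorem cx_cut {T' : Tow} (h : Lad s N c P) (hc : 2 ≤ c) (hX : T.Cx N P) {K : ℝ} (hK : K ≤ P j)
    (h1 : ∀ i, i ≠ j → T'.dm i = T.dm i ∧ T'.yy N i = T.yy N i) (h2 : T'.dm j + 1 = T.dm j)
    (h3 : T'.yy N j ≤ T.yy N j + K / 2) {n : ℕ} (k : 2 ≤ n) : T'.Cx N fun e => P e ^ n := by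
  intro e
  obtain ⟨a1, a2⟩ := two_le h hc e k
  obtain ⟨a3, a4⟩ := hX e
  by_cases k4 : e = j
  · subst k4
    have : 2 ≤ P e := le_trans (by exact_mod_cast hc) (h.big e)
    exact ⟨by linarith, by linarith⟩
  · rw [(h1 e k4).1, (h1 e k4).2]; exact ⟨a3.trans a2, a4.trans a2⟩

end lad

theorem core (hA : CUTA) (hC : CUT) (s : ℕ) : ∃ a c : ℕ, 2 * a + 2 * (a + 2) + 60 ≤ c ∧
    ∀ (N : ℝ) (P : ℕ → ℝ) (T : Tow) (C W S : Type) [Fintype W] [DecidableEq W] [Fintype S]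
    (cl : W → C) (m j : ℕ) (Z : Sys T W S) (H : (Lb T cl S m → ℤ) → ℝ) (B κ σ K : ℝ)
    (F : Frame T j) (J : Fam ℤ F.A F.ι W S) (x : Lb F.tA cl S m → ℝ), Lad s N c P → T.Ok s N →
    T.Cx N P → Z.Ok → j < m → (Fintype.card W + Fintype.card S : ℝ) ≤ P j → B ≤ Real.exp (P j) →
    Real.exp (-P j) ≤ κ → Real.exp (-P 0) ≤ σ → Z.St cl m H B κ σ → K ≤ P j → 1 ≤ j → j ≤ s →
    F.Ok → F.Jok J → Fintype.card F.A = 1 → F.D * mR F.L = 0 → (j = 1 → J.top = 0) →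
    -K ≤ Real.log F.GA.det → F.tA.mz cl S m ≤ T.mz cl S m →
    (∀ y, T.Ball j (ap (F.psi J.top) y) →
      qq F.GA (F.D *ᵥ T.ps (ap (F.psi J.top) y)) ≤ Real.exp (-P j ^ 2) ^ 2) →
    ((Fintype.card (Lb T cl S m) : ℝ) ≤ (P 1 ^ 2) ^ a → ∀ (n : Lb F.tA cl S m → ℤ) z,
      Z.nlo cl m j ((F.fam J n).sub cl m z) ≤ Real.exp (P (s + 1) ^ 2) →
      qq (Gam F.tA cl S m) ((F.dv cl m Z J).sb (toR z) - x) ≤ Real.exp (-P j ^ 2) ^ 2) →
    ∃ (T' : Tow) (Z' : Sys T' W S) (Ψ : Fam ℤ T.ι T'.ι W S), T'.Ok s N ∧ Z'.Ok ∧ Up (j + 1) T' T ∧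
      Sub cl m Z' Z Ψ (Real.exp (P (s + 1))) (P 0 ^ c) ∧
      Z'.St cl m (fun z => H (Ψ.sub cl m z)) B ((1 - 1 / P 0) * κ) (σ * Real.exp (-P 1 ^ c)) ∧
      (∀ e, e < j → T'.dm e = T.dm e ∧ T'.yy N e = T.yy N e) ∧
      T'.dm j + 1 = T.dm j ∧ T'.yy N j ≤ T.yy N j + K / 2 + 1 := by
  obtain ⟨a, hM⟩ := P057NA.mass s
  obtain ⟨b, hN⟩ := P057NA.nar s
  obtain ⟨d, hd⟩ : ∃ d, d = (2 * a + 2) * b + a + 2 := ⟨_, rfl⟩
  obtain ⟨c, hc⟩ : ∃ c, c = 2 * a + 2 * d + 60 + b := ⟨_, rfl⟩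
  refine ⟨a, c, by omega, fun N P T C W S _ _ _ cl m j Z H B κ σ K F J x hL hT hX hZ jm hn hB hκ
    hσ st hK j1 js h jk k1 k2 k3 k4 k5 p1 p2 => ?_⟩
  have c2 : 2 ≤ c := by omega
  have P1 : ∀ e, 1 ≤ P e := fun e => le_trans (Nat.one_le_cast.2 (by omega)) (hL.big e)
  have l1 := P057RG.lad_le hL j1
  have l0 := hL.anti 0
  have X0 := one_pos.trans_le (P1 0)
  have q := nm (a := a) (d := d) (c := c) (by omega) (by omega) (hL.big (s + 1))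
    (P057RG.lad_le hL (js.trans s.le_succ)) l1 l0 ((Real.log_le_iff_le_exp X0).1 hL.lg)
  obtain ⟨t0, t1, t2, t3, t4, t5, t6⟩ := hA s T C W S cl m j Z F J hT.ok0 hZ h jk j1 js jm
  have hT' := ok_cut hT h t0 k2 k3 t5
  have y1 : (F.tow J.top).yy N j ≤ T.yy N j + K / 2 := by linarith only [t3 N, k4]
  rw [k1, Nat.cast_one] at t2
  have cx := fun n => cx_cut (n := n) hL c2 hX hK (t1 N) t2 y1
  have hn' := fun n (k : 2 ≤ n) => (hn.trans l1).trans (two_le hL c2 1 k).2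
  have L1 := lad_pw hL le_rfl c2 (show a ≤ c by omega)
  obtain ⟨m1, m2, -⟩ := hM N _ T C W S cl m L1 hT
    (P057RG.cx_mono hX fun e => (two_le hL c2 e le_rfl).2) (hn' 2 le_rfl)
  obtain ⟨-, m3, -⟩ := hM N _ _ C W S cl m L1 hT' (cx 2 le_rfl) (hn' 2 le_rfl)
  have pin : ∀ (n : Lb F.tA cl S m → ℤ) z, (F.sys Z J n).nrm cl m z ≤
      Real.exp (P (s + 1)) + P 0 ^ d → qq (Gam F.tA cl S m) ((F.dv cl m Z J).sb (toR z) - x) ≤
        Real.exp (-P j ^ 2) ^ 2 := fun n z k6 => by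
    refine p2 m1 n z ((nlo_le (p := J.top) hT.pd h _).trans ?_)
    rw [← ((t6 n).2.2.2.2.2 z).1, ← sq_nrm hT'.pd]
    exact (pow_le_pow_left₀ (Real.sqrt_nonneg _) k6 2).trans q.n5
  have s0 := (Real.exp_pos _).trans_le hσ
  have κ0 := (Real.exp_pos _).trans_le hκ
  have r0 : 0 ≤ 40 * Real.exp (-P j ^ 2) * P 0 ^ (a + 2) := by positivity
  have r1 := mul_le_mul_of_nonneg_right (mul_le_mul_of_nonneg_left hB r0) X0.le
  have r2 : P 0 ^ (a + 2) ≤ P 0 ^ d := pow_le_pow_right₀ (P1 0) (by omega)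
  obtain ⟨n, n1, n2⟩ := hC s T C W S cl m j Z F J x H B κ σ (P 0 ^ (a + 2)) _ _ hT.ok0 hZ h jk j1
    js jm (fun n z k6 => pin n z (k6.trans (le_add_of_nonneg_of_le (Real.exp_pos _).le r2))) m2 m3
    (k5.trans m2) κ0.le s0 q.n1 (Real.exp_pos _).le
    (le_trans (le_mul_of_one_le_right r0 (one_le_mul_of_one_le_of_one_le (Real.one_le_exp
      (zero_le_one.trans (P1 j))) (P1 0))) ((mul_assoc _ _ _).symm.trans_le
      (q.n2.trans (Real.exp_le_one_iff.2 (neg_nonpos.2 (zero_le_one.trans (P1 j)))))))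
    ((mul_le_mul_of_nonneg_right (mul_le_mul_of_nonneg_right (mul_le_mul_of_nonneg_left hB
      (by norm_num)) (sq_nonneg _)) (Real.exp_pos _).le).trans (q.n3.trans hσ)) st
  obtain ⟨lam, a1, a2, a3, a4⟩ := exists_lam j
    (t2 ▸ le_add_of_nonneg_left (P057RG.dm_nonneg (F.tow J.top) j)) (hX j).1
  have c3 : 2 ≤ 2 * a + 2 := by omega
  obtain ⟨x', -, x1, x2, x3, x4, x5, x6⟩ := hN N _ _ C W S cl m _ _ B ((1 - 1 / P 0) * κ) _ lam
    (lad_pw hL c3 (by omega) (by omega)) hT' (cx _ c3) (t6 n).1 (hn' _ c3)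
    (hB.trans (Real.exp_le_exp.2 ((l1.trans l0).trans (two_le hL c2 0 c3).2)))
    (mul_nonneg (sub_nonneg.2 ((div_le_one X0).2 (P1 0))) κ0.le)
    (q.n7.trans (div_le_div_of_nonneg_right hσ (mul_pos two_pos (Real.exp_pos _)).le)) a1
    (fun e k => a2 e (jm.trans_le k).ne') (P057RG.st_mono hT' (t6 n).1 n2 (by
      rw [sub_mul, one_mul, one_div_mul_eq_div]
      exact sub_le_sub_left ((le_div_iff₀ X0).2 (r1.trans (q.n2.trans hκ))) _) le_rfl)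
  obtain ⟨-, f1, f2, f3, f4, f5⟩ := t6 n
  have mor : ∀ i, j < i → Mor i ((F.tow J.top).nar lam) T (F.psi J.top) := fun i hi =>
    mor_cut h a1 hi (fun y => f2 ▸ f1.top_hom y) t4 t5 fun y k6 =>
      (add_le_add_right ((p1 y k6).trans q.n9) _).trans a3
  refine ⟨(F.tow J.top).nar lam, _, F.fam J n, x2, x3, up_cut hT.ok0 h t0 j1 a2
    (mor _ j.lt_succ_self) (fun y => by rw [← f2, Fam.top, (f3 y none).1, MvPolynomial.map_X]) t4,
    ⟨f1, f2 ▸ mor m jm, fun f z A hA t => (x5 f z A t).trans (f4 f z A hA t), fun z k6 => ?_⟩,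
    P057RG.st_mono x2 x3 x6 le_rfl ?_, fun e k6 => ⟨(t1 N e k6.ne).1, ?_⟩, t2, ?_⟩
  · have e2 := nrm_nar t0 a1 (pow_pos X0 d).le (x1.trans (by
      rw [← pow_mul, ← pow_mul]; exact pow_le_pow_right₀ (P1 0) (by omega))) x4 z
    have e3 := le_of_pyth (b := (F.sys Z J n).nrm cl m z)
      (P057GH.pd_Gam (T := F.tA) h.pdA cl S m) (Real.sqrt_nonneg _) (pow_pos X0 _).le (Real.exp_pos _).le (f5 z).2.2 n1
      (pin n z (e2.trans (add_le_add_left k6 _)))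
    have e4 := Real.exp_le_one_iff.2 (neg_nonpos.2 (sq_nonneg (P j)))
    exact e3.trans (by linarith only [q.n6, e2, e4])
  · rw [div_eq_mul_one_div σ, mul_div_assoc]
    exact mul_le_mul_of_nonneg_left q.n8 s0.le
  · rw [yy_nar hT'.pd (one_pos.trans_le (a1 e)), a2 e k6.ne, (t1 N e k6.ne).2, Real.log_one,
      mul_zero, zero_div, add_zero]
  · rw [yy_nar hT'.pd (one_pos.trans_le (a1 j)), eq_sub_of_add_eq t2]
    exact add_le_add y1 a4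

end

end Vale.Agent.P057SH
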