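import Vale.Agent.P057SH.Core

/-!
Restriction to a sheet.
-/

set_option linter.all false

open Matrix Finset
open scoped Real
open Vale.Agent.P267.H775 Vale.Agent.P057G Vale.Agent.P057PC Vale.Agent.P057ST Vale.Agent.P057TP
open Vale.Agent.P057MA (Ort)

namespace Vale.Agent.P057SH

noncomputable section

variable {C W S : Type} {T : Tow} {cl : W → C} {m s j : ℕ} {F : Frame T j}
  {J : Fam ℤ F.A T.ι W S}

theorem ok_lin {R ι κ : Type} [CommRing R] [Fintype κ] {lv : ι → ℕ} {lw : κ → ℕ}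
    {X : Matrix ι κ R} (h : Ort lv lw X) : (Fam.lin W S X).Ok lv lw :=
  ⟨fun _ y => JH.sum _ fun v _ => by
    by_cases e : X y v = 0
    · rw [e, map_zero, map_zero, zero_mul]; exact JH.zero _ _
    · have := (JH.C (MvPolynomial.isHomogeneous_C (Option W) (X y v))).mul (JH.X lw v)
      rwa [zero_add, ← h y v e] at this, fun _ _ => rfl⟩

theorem top_lin (α : F.A) : (J.cmp (Fam.lin W S F.L)).top α =
    MvPolynomial.bind₁ (Fam.lin W S F.L).top (J.top α) := by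
  rw [Fam.cmp_eq, Fam.cast_int, Fam.top_cmr]

theorem top_low (hJ : ∀ o α, ∀ v ∈ (J.fn o α).vars, T.lv v < j) (α : F.A) :
    ∀ v ∈ (J.top α).vars, T.lv v < j := fun v hv => hJ none α v (MvPolynomial.vars_map _ _ hv)

theorem low_lin (h : F.Ok) (hJ : ∀ o α, ∀ v ∈ (J.fn o α).vars, T.lv v < j) (α : F.A) :
    ∀ v ∈ ((J.cmp (Fam.lin W S F.L)).top α).vars, F.lv v < j := fun v hv => by
  classical
  rw [top_lin] at hv
  obtain ⟨y, k4, k5⟩ := MvPolynomial.mem_vars_bind₁ _ _ hv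
  obtain ⟨β, k6, k7⟩ := (MvPolynomial.mem_vars v).1 k5
  exact ((Finsupp.le_weight_of_ne_zero' F.lv (Finsupp.mem_support_iff.1 k7)).trans_eq
    ((ok_lin h.oL).top_hom y (MvPolynomial.mem_support_iff.1 k6))).trans_lt (top_low hJ α y k4)

theorem top_dv (h : F.Ok) (hL : F.D * mR F.L = 0)
    (hJ : ∀ o α, ∀ v ∈ (J.fn o α).vars, T.lv v < j) (y : F.ι → ℝ) (α : F.A) :
    (F.D *ᵥ ap (F.psi (J.cmp (Fam.lin W S F.L)).top) y) α =
      MvPolynomial.aeval (ap (F.psi (J.cmp (Fam.lin W S F.L)).top) y) (J.top α) := by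
  conv_lhs => rw [ap_psi, mulVec_add, mulVec_mulVec, mulVec_mulVec, h.Da, hL, zero_mulVec,
    zero_add, one_mulVec, top_lin, MvPolynomial.aeval_bind₁]
  refine MvPolynomial.eval₂Hom_congr' rfl (fun v hv _ => ?_) rfl
  rw [ap_psi, Pi.add_apply, show (mR F.a *ᵥ _) v = 0 from sum_eq_zero fun β _ =>
    mul_eq_zero_of_left (not_not.1 (mt (h.oa.mR v β) (top_low hJ α v hv).ne)) _]
  simp [Fam.top, Fam.lin, mR, mulVec, dotProduct]

theorem top_df {Z : Sys T W S} (hZ : Z.Ok) (k : T.ι → ℤ) (J : Fam ℤ Unit T.ι W S) (y : T.ι → ℝ) :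
    MvPolynomial.eval y ((Z.df j k J).top ()) = MvPolynomial.aeval y (J.top ()) -
      toR k ⬝ᵥ fun v => MvPolynomial.eval y (T.q v) := by
  have e : (Z.df j k J).top () = MvPolynomial.map (Int.castRingHom ℝ) (J.top ()) -
      ∑ v, MvPolynomial.C (k v : ℝ) * T.q v := by
    rw [← Fam.top_cast]
    simp only [Fam.top, Sys.df, Fam.cast, ← hZ.top, map_sub, map_sum, map_mul, MvPolynomial.map_C,
      MvPolynomial.constantCoeff_C]
  rw [e, map_sub, MvPolynomial.eval_map, map_sum]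
  simp only [map_mul, MvPolynomial.eval_C]
  rfl

variable [Fintype W] [DecidableEq W] [Fintype S]

theorem sb_cmp (h : F.Ok) (hJ0 : J.Ok (fun _ => j) T.lv) {p : F.A → MvPolynomial F.ι ℤ}
    (z : Lb (F.tow p) cl S m → ℤ) :
    Fam.sb (T := F.tA) (T' := F.tow p) (J.cmp (Fam.lin W S F.L)) z =
      Fam.sb (T := F.tA) J (lab (T := T) (T' := F.tow p) cl S m F.L *ᵥ z) := by
  rw [← sb_lin (T' := F.tow p) h.oL, Fam.cmp_eq, Fam.cast_int]
  exact Fam.Ok.sb_cmr (T := F.tA) (T' := T) (T'' := F.tow p) hJ0 (ok_lin h.oL) z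

theorem dv_eq (h : F.Ok) (hD : F.D = mR F.K) (hJ0 : J.Ok (fun _ => j) T.lv)
    (hJ : ∀ o α, ∀ v ∈ (J.fn o α).vars, T.lv v < j) {J' : Fam ℤ F.A F.ι W S}
    (e : J' = J.cmp (Fam.lin W S F.L)) {Z : Sys T W S} {n : Lb F.tA cl S m → ℤ}
    {z : Lb (F.tow J'.top) cl S m → ℤ} {t : Lb F.tA cl S m → ℝ}
    (e3 : toR n + t = Fam.sb (T := F.tA) (Fam.lin W S F.D) (Z.ps cl m ((F.fam J' n).sub cl m z))) :
    t = toR (Fam.sb (T := F.tA) J ((F.fam J' n).sub cl m z)) -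
      lab (T := F.tA) cl S m (mR F.K) *ᵥ Z.pr cl m (toR ((F.fam J' n).sub cl m z)) := by
  have e1 : Fam.sb (T := F.tA) J ((F.fam J' n).sub cl m z) =
      Fam.sb (T := F.tA) (T' := F.tow J'.top) J' z := by
    refine (sb_low (T' := F.tA) hJ fun l k4 => ?_).trans ((sb_cmp h hJ0 z).symm.trans
      (congrArg (Fam.sb (T := F.tA) (T' := F.tow J'.top) · z) e.symm))
    rw [sub_fam h, Pi.add_apply, lab_mulVec (T' := F.tA) h.oa,
      sum_eq_zero fun v _ => absurd v.2 k4.ne', add_zero]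
  have e2 : lab (T := F.tA) cl S m F.K *ᵥ (F.fam J' n).sub cl m z =
      Fam.sb (T := F.tA) (T' := F.tow J'.top) J' z + n := by
    rw [sub_fam h, mulVec_add, mulVec_mulVec, mulVec_mulVec, (lab_sp h).BL,
      (lab_sp (j := J'.top) h).BA, zero_mulVec, one_mulVec, zero_add]
  rw [sb_lin (T := F.tA) h.oD, Sys.ps, mulVec_sub, hD, ← lab_mR (T := F.tA), ← toR_mulVec, e2,
    toR_add, add_comm (toR _) (toR n), add_sub_assoc, add_right_inj] at e3
  rw [e3, e1, lab_mR]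

variable {U U' : Matrix T.ι T.ι ℤ} {j0 : T.ι} {h0 : T.lv j0 = j}

theorem card_tA : Fintype.card (Lb (fr U U' j0 h0).tA cl S m) ≤ Fintype.card (Lb T cl S m) :=
  Fintype.card_le_of_injective (fun l => mv l ⟨j0, h0⟩) fun _ _ e =>
    Lb.ext' rfl (congrArg Lb.fc e :) (congrArg Lb.bs e :)

theorem mz_tA (hT : T.Ok0 s) (h : (fr U U' j0 h0).Ok) :
    (fr U U' j0 h0).tA.mz cl S m ≤ T.mz cl S m := by
  refine mul_le_mul (pow_le_pow_right₀ one_le_two card_tA) (le_of_eq_of_le ?_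
    ((lab_sp (j := 0) h).ms_le (P057GH.pd_Gam hT.pd cl S m))) (ms_nonneg _ _) (by positivity)
  have o := (ort_G hT).inv hT.pd.det_pos.ne'.isUnit
  rw [g2, lab_mR, gam_eq T, ← lab_inv (ort_G hT) hT.pd.det_pos.ne'.isUnit, ← lab_tr,
    ← lab_mul (T := (fr U U' j0 h0).tA) h.oK.mR, ← lab_mul (T := (fr U U' j0 h0).tA)
    (h.oK.mR.mul o), ← lab_inv (T := (fr U U' j0 h0).tA) (fun _ _ _ => rfl)
    ((fr_sp h).pd0 hT.pd).det_pos.ne'.isUnit]
  rfl

theorem qq_tA {γ ε : ℝ} (hγ : (fr U U' j0 h0).GA () () ≤ γ) (h : 0 ≤ γ)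
    {t : Lb (fr U U' j0 h0).tA cl S m → ℝ} (ht : ∀ l, |t l| ≤ ε) :
    qq (Gam (fr U U' j0 h0).tA cl S m) t ≤ γ * (Fintype.card (Lb T cl S m) * ε ^ 2) := by
  have e : Gam (fr U U' j0 h0).tA cl S m = (fr U U' j0 h0).GA () () • 1 := by
    rw [← lab_one]
    ext l l'
    simp only [gam_eq, lab, of_apply, Matrix.smul_apply]
    split_ifs <;> simp
  rw [e, qq_smul_mat, qq, one_mulVec]
  refine mul_le_mul hγ ((sum_le_card_nsmul _ _ (ε ^ 2) fun l _ => ?_).trans ?_)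
    (sum_nonneg fun l _ => mul_self_nonneg _) h
  · rw [← sq, ← sq_abs]; exact pow_le_pow_left₀ (abs_nonneg _) (ht l) 2
  · rw [nsmul_eq_mul]
    exact mul_le_mul_of_nonneg_right (Nat.cast_le.2 card_tA) (sq_nonneg _)

theorem sheet (hA : CUTA) (hC : CUT) (s : ℕ) : SHEET s := by
  obtain ⟨a, c, hc, h1⟩ := core hA hC s
  refine ⟨c, fun N P T C W S _ _ _ cl m j Z H B κ σ K k J x hL hT hX hZ jm hn hB hκ hσ st K1 hK
    k1 k2 k3 hJ Jl p1 p2 => ?_⟩
  obtain ⟨U, U', j0, u, o1, o2, h0, rfl, u3⟩ := exists_U k1 k2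
  have h := ok_fr (h0 := h0) hT.ok0 u o1 o2 u3
  have j1 : 1 ≤ j := h0 ▸ hT.pos j0
  have js : j ≤ s := h0 ▸ hT.le j0
  have P1 : ∀ e, 1 ≤ P e := fun e => le_trans (Nat.one_le_cast.2 (by omega)) (hL.big e)
  have q := (nm hc le_rfl (hL.big (s + 1)) (P057RG.lad_le hL (js.trans s.le_succ))
    (P057RG.lad_le hL j1) (hL.anti 0)
    ((Real.log_le_iff_le_exp (one_pos.trans_le (P1 0))).1 hL.lg)).n4
  have Jl' : ∀ o (α : (fr U U' j0 h0).A), ∀ v ∈ (J.fn o α).vars, T.lv v < j := fun o _ => Jl o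
  have low := low_lin h Jl'
  have jo := hJ.cmp (ok_lin (W := W) (S := S) h.oL)
  have k0 : U' j0 ≠ 0 := fun e => by simp [e] at k2
  have g2 : (fr U U' j0 h0).GA () () ≤ Real.exp (P j + 4 * (P j + 1) ^ 2) ^ 2 :=
    (g2_le hT.pd k0 k1).trans (pow_le_pow_left₀ (ms_nonneg _ _) ((P057TE.ms_blk hT hL.one j).trans
      (Real.exp_le_exp.2 (add_le_add (hX j).2 (mul_le_mul_of_nonneg_left (pow_le_pow_left₀
        (add_nonneg (P057RG.dm_nonneg T j) zero_le_one) (add_le_add_left (hX j).1 1) 2)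
        (by norm_num))))) 2)
  refine h1 N P T C W S cl m j Z H B κ σ _ (fr U U' j0 h0) (J.cmp (Fam.lin W S _)) x hL hT hX hZ
    jm hn hB hκ hσ st hK j1 js h ⟨jo, fun _ α _ => low α⟩ rfl (fr_sp h).real.BL
    (fun e => funext fun α => eq_zero_of_low (fun b => hT.pos b.1) (e ▸ jo.top_hom α) (e ▸ low α))
    ?_ (mz_tA hT.ok0 h) (fun y k4 => ?_) fun m1 n z k4 => ?_
  · rw [det_unique, ← Real.log_inv]
    exact Real.log_le_log (inv_pos.2 (one_pos.trans_le K1)) (g2_ge hT.pd k0 k3)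
  · have e1 := p1 _ k4
    rw [top_df hZ, ← top_dv h (fr_sp h).real.BL Jl'] at e1
    refine (qq_unit _ _).trans_le (le_trans (mul_le_mul g2 (le_trans ?_ (le_mul_of_one_le_left
      (sq_nonneg _) (one_le_pow₀ (one_le_pow₀ (P1 1))))) (sq_nonneg _) (sq_nonneg _)) q)
    rw [← sq_abs]
    exact pow_le_pow_left₀ (abs_nonneg _) (le_of_eq_of_le
      (congrArg abs (congrFun (mulVec_sub _ _ _) ())) e1) 2
  · have e1 := dv_eq h rfl hJ Jl' rfl (((hA s T C W S cl m j Z _ _ hT.ok0 hZ h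
      ⟨jo, fun _ α _ => low α⟩ j1 js jm).2.2.2.2.2.2 n).2.2.2.2.2 z).2.1
    refine (qq_tA g2 (sq_nonneg _) fun l => ?_).trans (le_trans (mul_le_mul_of_nonneg_left
      (mul_le_mul_of_nonneg_right m1 (sq_nonneg _)) (sq_nonneg _)) q)
    have e2 := p2 _ k4 l
    rw [sb_df Z k1] at e2
    rw [e1]
    exact e2

end

end Vale.Agent.P057SH
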