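import Vale.Agent.P057SH.Fr
import Vale.Agent.P057NA.Nar

/-!
Lengths, covolumes and positions along a frame and under narrowing.
-/

set_option linter.all false

open Matrix Finset
open scoped Real
open Vale.Agent.P267.H775 Vale.Agent.P057G Vale.Agent.P057PC Vale.Agent.P057ST Vale.Agent.P057TP
open Vale.Agent.P057MA (Ort)

namespace Vale.Agent.P057SH

noncomputable section

theorem qq_mask {ι A : Type} [Fintype ι] {f : ι → A} {G : Matrix ι ι ℝ} (hG : G.PosDef)
    (h : Ort f f G) (p : A → Prop) [DecidablePred p] (v : ι → ℝ) :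
    qq G (fun a => if p (f a) then v a else 0) ≤ qq G v := by
  have e : v = (fun a => if p (f a) then v a else 0) + fun a => if ¬ p (f a) then v a else 0 := by
    funext a; by_cases k : p (f a) <;> simp [k]
  conv_rhs => rw [e]
  rw [qq_add hG.1, bb, ort_mask h fun x => ¬ p x, dotProduct,
    sum_eq_zero fun a _ => by by_cases k : p (f a) <;> simp [k]]
  linarith [qq_nonneg hG.posSemidef fun a => if ¬ p (f a) then v a else 0]

variable {C W S : Type} {T T' : Tow} {cl : W → C} {m s j : ℕ} {N : ℝ} {lam : ℕ → ℝ}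

theorem ort_lab {R : Type} [CommRing R] {X : Matrix T.ι T'.ι R} (h : Ort T.lv T'.lv X) :
    Ort (fun l => T.lv l.cd) (fun l => T'.lv l.cd) (lab cl S m X) := fun l l' e =>
  h _ _ fun k => e (lab_eq_zero fun _ _ => k)

theorem ln_nar (T : Tow) (lam : ℕ → ℝ) (e : ℕ) (y : T.ι → ℝ) :
    (T.nar lam).ln e y = lam e * T.ln e y := by
  simp only [Tow.ln, qq, dotProduct, mulVec, mul_sum]
  refine sum_congr rfl fun a _ => sum_congr rfl fun b _ => ?_
  change (if T.lv a = e then T.ps y a else 0) * (lam (T.lv a) * T.G a b *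
    if T.lv b = e then T.ps y b else 0) = _
  by_cases k : T.lv a = e
  · rw [k]; ring
  · simp [k]

theorem yy_nar (hT : T.G.PosDef) {e : ℕ} (h : 0 < lam e) :
    (T.nar lam).yy N e = T.yy N e + T.dm e * Real.log (lam e) / 2 := by
  have e1 : (bk (T.nar lam).G fun a => T.lv a = e) = lam e • bk T.G fun a => T.lv a = e := by
    ext a b
    exact congrArg (fun i => lam i * T.G a.1 b.1) a.2
  have e2 := congrArg (fun M : Matrix {a // T.lv a = e} {a // T.lv a = e} ℝ => Real.log M.det) e1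
  beta_reduce at e2
  rw [det_smul, Real.log_mul (by positivity) (posDef_bk hT _).det_pos.ne', Real.log_pow,
    P057TE.card_lv] at e2
  exact (congrArg (· / 2 + _) e2).trans (by rw [Tow.yy]; ring)

variable {F : Frame T j} {p : F.A → MvPolynomial F.ι ℤ}

theorem ln_cut (h : F.Ok) {y : F.ι → ℝ} {y' : T.ι → ℝ} (hy : (F.tow p).ps y = F.B *ᵥ T.ps y')
    (e : ℕ) : T.ln e y' = (F.tow p).ln e y +
      qq F.GA fun α => if j = e then (F.D *ᵥ T.ps y') α else 0 := by
  rw [Tow.ln, h.qq, ort_mask h.oB (· = e), ort_mask h.oD (· = e), Tow.ln, hy]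

theorem ap_psi (y : F.ι → ℝ) :
    ap (F.psi p) y = mR F.L *ᵥ y + mR F.a *ᵥ fun α => MvPolynomial.aeval y (p α) := by
  funext x
  simp [ap, Frame.psi, mR, mulVec, dotProduct]

theorem eq_zero_of_low {ι : Type} {lv : ι → ℕ} (h0 : ∀ a, 0 < lv a) {q : MvPolynomial ι ℤ}
    (h : q.IsWeightedHomogeneous lv 1) (h1 : ∀ v ∈ q.vars, lv v < 1) : q = 0 := by
  classical
  ext d
  by_contra k
  have h2 := h k
  obtain ⟨v, hv⟩ : d.support.Nonempty := Finsupp.support_nonempty_iff.2 fun e => by simp [e] at h2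
  exact (h1 v ((MvPolynomial.mem_vars v).2 ⟨d, MvPolynomial.mem_support_iff.2 k, hv⟩)).not_ge (h0 v)

/-- the arithmetic conditions pass to a sheet -/
theorem ok_cut (hT : T.Ok s N) (h : F.Ok) (h0 : (F.tow p).Ok0 s) (hL : F.D * mR F.L = 0)
    (hp : j = 1 → p = 0) (he : ∀ y, toR (F.tow p).el ⬝ᵥ y = toR T.el ⬝ᵥ ap (F.psi p) y) :
    (F.tow p).Ok s N := by
  have e1 : ∀ y, toR (F.tow p).el ⬝ᵥ y = toR T.el ⬝ᵥ mR F.L *ᵥ y := fun y => by
    rw [he, ap_psi, dotProduct_add, add_eq_left]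
    by_cases k : j = 1
    · simp [hp k, show (fun _ : F.A => (0 : ℝ)) = 0 from rfl]
    refine sum_eq_zero fun a _ => ?_
    by_cases k2 : T.lv a = j
    · simp [hT.el1 a (k2 ▸ k)]
    · exact mul_eq_zero_of_right _ (sum_eq_zero fun α _ =>
        mul_eq_zero_of_left (not_not.1 (mt (h.oa.mR a α) k2)) _)
  have e2 : ∀ y, qq T.G (mR F.L *ᵥ y) = qq F.G y := fun y => by
    rw [h.qq, mulVec_mulVec, mulVec_mulVec, h.BL, hL, one_mulVec, zero_mulVec, qq_zero, add_zero]
  refine h0.ok (fun z k1 k2 => ?_) fun x => by rw [e1]; exact (hT.elN _).trans_eq (by rw [e2])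
  rw [← e2, ← toR_mulVec]
  refine hT.sep _ (fun k => k1 (inj_of_mul h.PL (k.trans (mulVec_zero _).symm))) ?_
  have := e1 (toR z)
  rw [← toR_mulVec] at this
  have c : ∀ {ι : Type} [Fintype ι] (a b : ι → ℤ), toR a ⬝ᵥ toR b = ((a ⬝ᵥ b : ℤ) : ℝ) :=
    fun a b => by simp [dotProduct]
  rw [c, c, k2] at this
  exact_mod_cast this.symm

variable [Fintype W] [DecidableEq W] [Fintype S]

theorem nlo_le (hT : T.G.PosDef) (h : F.Ok) (v : Lb T cl S m → ℝ) :
    qq (Gam T cl S m) (fun l => if T.lv l.cd < j then v l else 0) ≤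
      qq (Gam (F.tow p) cl S m) (Fam.sb (T := F.tow p) (Fam.lin W S F.B) v) := by
  rw [sb_lin (T := F.tow p) h.oB, lab_gram (j := p) hT h, qq_add_mat, qq_conj, qq_conj,
    ort_mask (ort_lab (T := F.tow p) h.oB) (· < j), ort_mask (ort_lab (T := F.tA) h.oD) (· < j)]
  simp only [lt_self_iff_false, if_false]
  rw [show (fun _ => (0 : ℝ)) = 0 from rfl, qq_zero, add_zero]
  exact qq_mask (P057GH.pd_Gam (T := F.tow p) h.pd cl S m) (ort_lab (T := F.tow p) h.oG) (· < j) _

theorem sb_low {R : Type} [CommRing R] {J : Fam R T'.ι T.ι W S}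
    (h : ∀ o a, ∀ v ∈ (J.fn o a).vars, T.lv v < j) {x x' : Lb T cl S m → R}
    (hx : ∀ l, T.lv l.cd < j → x l = x' l) : (J.sb x : Lb T' cl S m → R) = J.sb x' := by
  funext l
  rw [Fam.sb, Fam.sb, Fam.alt_eq, Fam.alt_eq]
  refine congrArg _ (MvPolynomial.eval₂Hom_congr' rfl (fun v hv _ => ?_) rfl)
  refine sum_congr rfl fun l' _ => ?_
  split_ifs with k
  exacts [by rw [hx l' (k.1 ▸ h _ _ v hv)], rfl]

theorem sb_df (Z : Sys T W S) {k : T.ι → ℤ} (hk : ∀ a, T.lv a ≠ j → k a = 0)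
    (J : Fam ℤ Unit T.ι W S) (z : Lb T cl S m → ℤ) : (Z.df j k J).sb (toR z) =
      toR (Fam.sb (T := one j) J z) - lab (T := one j) cl S m (mR (rw1 k)) *ᵥ Z.pr cl m (toR z) := by
  funext l
  rw [Pi.sub_apply, lab_mulVec (T := one j) fun _ b e => (by_contra fun k1 => e (by
    simp [mR, rw1, hk b (Ne.symm k1)])), toR_apply, Fam.sb, Fam.sb, Fam.cast_alt, Fam.alt_eq,
    Fam.alt_eq]
  simp only [Sys.df, map_sub, map_sum, map_mul, MvPolynomial.eval_C, altL_sub, altL_sum, altL_C_mul]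
  rw [← sum_lv (e := j) fun b hb => by_contra fun k1 => hb (by simp [hk b k1])]
  exact congrArg₂ _ rfl (sum_congr rfl fun b _ => congrArg _ (Fam.alt_eq _ _ _ _ _).symm)


end

end Vale.Agent.P057SH
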