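import Vale.Agent.P057SH.Mass
import Vale.Agent.P057TP.Ops2

/-!
The cut with pinned positions.
-/

set_option linter.all false

open Matrix Finset
open scoped Real
open Vale.Agent.P267.H775 Vale.Agent.P057G Vale.Agent.P057PC Vale.Agent.P057ST Vale.Agent.P057TP
open Vale.Agent.P057MA (Ort)

namespace Vale.Agent.P057SH

noncomputable section

section lin

variable {ι κ K : Type} [Fintype ι] [Fintype κ] [Fintype K] [DecidableEq ι] [DecidableEq κ]
  [DecidableEq K]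

theorem ext_qq {G H : Matrix ι ι ℝ} (hG : G.IsHermitian) (hH : H.IsHermitian)
    (h : ∀ v, qq G v = qq H v) : G = H := by
  ext i j
  have h1 := qq_add hG (Pi.single i 1) (Pi.single j 1)
  rw [h, h, h, qq_add hH] at h1
  have h2 : bb G (Pi.single i 1) (Pi.single j 1) = bb H (Pi.single i 1) (Pi.single j 1) := by
    linarith
  simpa [bb] using h2

theorem herm_conj {G : Matrix ι ι ℝ} (hG : G.IsHermitian) (X : Matrix ι κ ℝ) :
    (Xᵀ * G * X).IsHermitian := by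
  simpa using isHermitian_conjTranspose_mul_mul X hG

theorem Sp.det_frame {L : Matrix ι κ ℤ} {A : Matrix ι K ℤ} {M : Matrix κ ι ℤ} {B : Matrix K ι ℤ}
    (h : Sp L A M B) {X : Matrix κ ι ℝ} {D : Matrix K ι ℝ} (G : Matrix κ κ ℝ) (H : Matrix K K ℝ)
    (h1 : X * mR L = 1) (h2 : D * mR A = 1) (h3 : X * mR A = 0 ∨ D * mR L = 0) :
    (Xᵀ * G * X + Dᵀ * H * D).det = G.det * H.det := by
  have e1 : Xᵀ * G * X + Dᵀ * H * D = (fromRows X D)ᵀ * fromBlocks G 0 0 H * fromRows X D := by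
    rw [transpose_fromRows, fromCols_mul_fromBlocks, fromCols_mul_fromRows]; simp
  have e2 : (fromRows X D * fromCols (mR L) (mR A)).det = 1 := by
    rw [fromRows_mul_fromCols, h1, h2]
    rcases h3 with k | k <;> simp [k]
  rw [← h.det_conj, e1, ← Matrix.mul_assoc, ← Matrix.mul_assoc, ← transpose_mul, Matrix.mul_assoc,
    det_mul, det_mul, det_transpose, e2, det_fromBlocks_zero₂₁, one_mul, mul_one]

omit [DecidableEq ι] in
theorem sqrt_qq_add {G : Matrix ι ι ℝ} (hG : G.PosDef) (x y : ι → ℝ) :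
    √(qq G (x + y)) ≤ √(qq G x) + √(qq G y) := by
  have h1 := qq_nonneg hG.posSemidef x
  have h2 := qq_nonneg hG.posSemidef y
  have h3 : bb G x y ≤ √(qq G x) * √(qq G y) := by
    rw [← Real.sqrt_mul h1]
    exact Real.le_sqrt_of_sq_le (bb_sq_le hG.posSemidef x y)
  refine Real.sqrt_le_iff.2 ⟨by positivity, ?_⟩
  rw [qq_add hG.1, add_sq, Real.sq_sqrt h1, Real.sq_sqrt h2]
  linarith

omit [DecidableEq ι] in
theorem abs_sqrt_qq {G : Matrix ι ι ℝ} (hG : G.PosDef) (x y : ι → ℝ) :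
    |√(qq G x) - √(qq G y)| ≤ √(qq G (x - y)) := by
  have h1 := sqrt_qq_add hG (x - y) y
  have h2 := sqrt_qq_add hG (-(x - y)) x
  rw [sub_add_cancel] at h1
  rw [neg_sub, sub_add_cancel, ← neg_sub, qq_neg] at h2
  rw [abs_le]; constructor <;> linarith

theorem ng_eq (G : Matrix ι ι ℝ) (v : ι → ℝ) : ng G v = ng G 0 * Real.exp (-(π * qq G v)) := by
  rw [ng, ng, gs_zero, gs]; ring

theorem one_le_qq {z : ι → ℤ} (hz : z ≠ 0) : 1 ≤ qq (1 : Matrix ι ι ℝ) (toR z) := by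
  obtain ⟨i, hi⟩ := Function.ne_iff.1 hz
  rw [qq, one_mulVec]
  refine le_trans ?_ (single_le_sum (fun j _ => mul_self_nonneg (toR z j)) (mem_univ i))
  have := Int.one_le_abs hi
  rw [toR_apply, ← abs_mul_abs_self]
  exact_mod_cast (by nlinarith : 1 ≤ |z i| * |z i|)

end lin

variable {C W S : Type} {T T' : Tow} {cl : W → C} {m s e : ℕ}

/-- the same polynomials with trivial metric data -/
abbrev flat (T : Tow) : Tow := { T with G := 1, el := 0 }

theorem ok_flat (h : T.Ok0 s) : (flat T).Ok s 0 :=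
  ⟨h.pos, h.le, h.hom, h.low, PosDef.one, fun _ _ k => one_apply_ne fun e => k (congrArg _ e),
    fun _ _ => rfl, fun _ k _ => one_le_qq k, fun x => by simp [toR_zero]⟩

variable [Fintype W] [DecidableEq W] [Fintype S]

theorem pr_congr0 (hT : T.Ok0 s) {Z : Sys T W S} (h : Z.Ok) {x x' : Lb T cl S m → ℝ}
    {l : Lb T cl S m} (hx : ∀ l', l'.fc ⊆ l.fc → (l'.bs = none ∨ l'.bs = l.bs) →
      T.lv l'.cd < T.lv l.cd → x l' = x' l') : Z.pr cl m x l = Z.pr cl m x' l :=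
  P057GH.pr_congr (ok_flat hT) (Z := ⟨Z.fam, Z.off⟩) ⟨h.fam, h.top⟩ hx

theorem tri_pr0 (hT : T.Ok0 s) {Z : Sys T W S} (h : Z.Ok) :
    Tri (fun l : Lb T cl S m => T.lv l.cd) fun z => Z.pr cl m (toR z) :=
  fun l z z' k => pr_congr0 hT h fun l' _ _ h3 => by rw [toR_apply, toR_apply, k l' h3]

theorem gam_blk0 (hT : T.Ok0 s) (l l' : Lb T cl S m) (h : T.lv l.cd ≠ T.lv l'.cd) :
    Gam T cl S m l l' = 0 := lab_eq_zero fun _ _ => hT.blk _ _ h

theorem sq_nrm (hT : T.G.PosDef) (Z : Sys T W S) (z : Lb T cl S m → ℤ) :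
    Z.nrm cl m z ^ 2 = qq (Gam T cl S m) (Z.ps cl m z) :=
  Real.sq_sqrt (qq_nonneg (P057GH.pd_Gam hT cl S m).posSemidef _)

theorem sb_lin {R : Type} [CommRing R] {X : Matrix T.ι T'.ι R} (hX : Ort T.lv T'.lv X)
    (x : Lb T' cl S m → R) : Fam.sb (Fam.lin W S X) x = lab cl S m X *ᵥ x := by
  funext l
  rw [lab_alt hX, Fam.sb, Fam.alt_eq]
  simp only [Fam.lin, map_sum, map_mul, MvPolynomial.eval_C, MvPolynomial.eval_X, altL_sum,
    altL_C_mul]

theorem st_le (hT : T.Ok0 s) {Z : Sys T W S} {H : (Lb T cl S m → ℤ) → ℝ} {B κ σ : ℝ}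
    (h : Z.St cl m H B κ σ) (hσ : 0 < σ) : κ ≤ B := by
  by_contra k
  refine (hσ.trans_le h.2).not_ge (tsum_nonpos fun z => ?_)
  exact mul_nonpos_of_nonneg_of_nonpos (P057GH.w_nonneg Z z)
    (by linarith [(abs_le.1 (h.1 z)).2, not_le.1 k])

variable {F : Frame T e} {j : F.A → MvPolynomial F.ι ℤ}

theorem fr_sp (h : F.Ok) : Sp F.L F.a F.P F.K := ⟨h.PL, h.Pa, h.KL, h.Ka, h.LP⟩

theorem fr_gram (hT : T.G.PosDef) (h : F.Ok) : T.G = F.Bᵀ * F.G * F.B + F.Dᵀ * F.GA * F.D :=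
  ext_qq hT.1 ((herm_conj h.pd.1 _).add (herm_conj h.pdA.1 _)) fun v => by
    rw [qq_add_mat, qq_conj, qq_conj, h.qq]

theorem lab_sp (h : F.Ok) : Sp (lab (T := T) (T' := F.tow j) cl S m F.L)
    (lab (T := T) (T' := F.tA) cl S m F.a) (lab (T := F.tow j) (T' := T) cl S m F.P)
    (lab (T := F.tA) (T' := T) cl S m F.K) :=
  ⟨by rw [← lab_mul (T := F.tow j) h.oP, h.PL, lab_one],
    by rw [← lab_mul (T := F.tow j) h.oP, h.Pa, lab_zero],
    by rw [← lab_mul (T := F.tA) h.oK, h.KL, lab_zero],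
    by rw [← lab_mul (T := F.tA) h.oK, h.Ka, lab_one],
    by rw [← lab_mul (T' := F.tow j) h.oL, ← lab_mul (T' := F.tA) h.oa, ← lab_add, h.LP, lab_one]⟩

theorem lab_gram (hT : T.G.PosDef) (h : F.Ok) : Gam T cl S m =
    (lab (T := F.tow j) (T' := T) cl S m F.B)ᵀ * Gam (F.tow j) cl S m *
      lab (T := F.tow j) (T' := T) cl S m F.B + (lab (T := F.tA) (T' := T) cl S m F.D)ᵀ *
        Gam F.tA cl S m * lab (T := F.tA) (T' := T) cl S m F.D := by
  rw [gam_eq, gam_eq, gam_eq, fr_gram hT h, lab_add, lab_mul (T' := F.tow j)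
    (h.oB.transpose.mul h.oG), lab_mul (T' := F.tow j) h.oB.transpose, lab_mul (T' := F.tA)
    (h.oD.transpose.mul fun _ _ _ => rfl), lab_mul (T' := F.tA) h.oD.transpose, lab_tr, lab_tr]

theorem ng_zero_eq (hT : T.G.PosDef) (h : F.Ok) :
    ng (Gam (F.tow j) cl S m) 0 * ng (Gam F.tA cl S m) 0 = ng (Gam T cl S m) 0 := by
  have h1 := (lab_sp (cl := cl) (S := S) (m := m) (j := j) h).det_frame (Gam (F.tow j) cl S m)
    (Gam F.tA cl S m) (X := lab cl S m F.B) (D := lab cl S m F.D)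
    (by rw [lab_mR, ← lab_mul (T := F.tow j) h.oB, h.BL, lab_one])
    (by rw [lab_mR, ← lab_mul (T := F.tA) h.oD, h.Da, lab_one])
    (h.tri.imp (fun k => by rw [lab_mR, ← lab_mul (T := F.tow j) h.oB, k, lab_zero])
      fun k => by rw [lab_mR, ← lab_mul (T := F.tA) h.oD, k, lab_zero])
  rw [← lab_gram hT h] at h1
  simp only [ng, gs_zero, vol, h1, one_div, inv_inv]
  rw [Real.sqrt_mul (P057GH.pd_Gam (T := F.tow j) h.pd cl S m).det_pos.le]

theorem sub_fam (h : F.Ok) (J : Fam ℤ F.A F.ι W S) (n : Lb F.tA cl S m → ℤ)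
    (z : Lb (F.tow J.top) cl S m → ℤ) : (F.fam J n).sub cl m z =
      lab (T := T) (T' := F.tow J.top) cl S m F.L *ᵥ z + lab (T := T) (T' := F.tA) cl S m F.a *ᵥ
        (Fam.sb (T := F.tA) (T' := F.tow J.top) J z + n) := by
  funext l
  rw [Pi.add_apply, ← sb_lin (T' := F.tow J.top) h.oL, lab_mulVec (T' := F.tA) h.oa, Fam.sub,
    Fam.sb, Fam.alt_eq, Fam.alt_eq]
  simp only [Frame.fam, map_add, map_sum, map_mul, MvPolynomial.eval_C, altL_add, altL_sum,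
    altL_C_mul]
  rw [← sum_lv (T' := F.tA) fun b hb => (h.oa _ _ (left_ne_zero_of_mul hb)).symm]
  refine congrArg _ (sum_congr rfl fun b _ => congrArg _ ?_)
  exact congrArg₂ _ (Fam.alt_eq (T := F.tow J.top) J z _ _ _).symm (altL_lift n (mv l b))

/-- the labels of the tower are the pairs of a piece and labels on the piece -/
def eqv (h : F.Ok) (J : Fam ℤ F.A F.ι W S) :
    (Lb F.tA cl S m → ℤ) × (Lb (F.tow J.top) cl S m → ℤ) ≃ (Lb T cl S m → ℤ) :=
  ((Equiv.prodComm _ _).trans ((Equiv.prodShear (Equiv.refl _) fun z =>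
    Equiv.addLeft (Fam.sb (T := F.tA) (T' := F.tow J.top) J z)).trans
      (Equiv.prodComm _ _))).trans (lab_sp h).eqv

theorem eqv_eq (h : F.Ok) (J : Fam ℤ F.A F.ι W S) (n : Lb F.tA cl S m → ℤ)
    (z : Lb (F.tow J.top) cl S m → ℤ) : eqv h J (n, z) = (F.fam J n).sub cl m z :=
  (sub_fam h J n z).symm

theorem one_le_mz (hT : T.G.PosDef) : 1 ≤ T.mz cl S m :=
  one_le_mul_of_one_le_of_one_le (one_le_pow₀ one_le_two)
    (P057TE.one_le_ms (P057GH.pd_Gam hT cl S m))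

theorem cut (hA : CUTA) (hF : FRZ) (hM : MTRI) : CUT := by
  intro s T C W S _ _ _ cl m e Z F J x H B κ σ R δ M hT hZ h hJ e1 es em pin m1 m2 m3 k0 s0 R2 d0
    d1 tl st
  obtain ⟨hT', -, -, -, -, -, a⟩ := hA s T C W S cl m e Z F J hT hZ h hJ e1 es em
  have p0 := P057GH.pd_Gam hT.pd cl S m
  have p1 := P057GH.pd_Gam hT'.pd cl S m
  have p2 := P057GH.pd_Gam (T := F.tA) h.pdA cl S m
  have e0 := ng_zero_eq (cl := cl) (S := S) (m := m) (j := J.top) hT.pd h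
  obtain ⟨n, h1, h2⟩ := hF _ _ _ (eqv h J) (fun z => qq (Gam T cl S m) (Z.ps cl m z)) H
    (fun n z => qq (Gam _ cl S m) ((F.sys Z J n).ps cl m z))
    (fun n z => qq (Gam F.tA cl S m) (toR n + (F.dv cl m Z J).sb (toR z)))
    (fun n => qq (Gam F.tA cl S m) (toR n + x)) _ _ B κ σ R δ M (ng_pos p1 0) (ng_pos p2 0)
    (fun _ _ => ⟨qq_nonneg p1.posSemidef _, qq_nonneg p2.posSemidef _⟩)
    (fun _ => qq_nonneg p2.posSemidef _)
    (fun n z => by
      rw [eqv_eq, ← sq_nrm hT.pd, ← sq_nrm hT'.pd]; exact ((a n).2.2.2.2.2 z).2.2)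
    (fun n z k => (abs_sqrt_qq p2 _ _).trans (Real.sqrt_le_iff.2 ⟨d0, by
      rw [add_sub_add_left_eq_sub]
      exact pin n z (Real.sqrt_le_iff.2 ⟨by linarith, k⟩)⟩))
    (by
      obtain ⟨M0, k1, k2⟩ := (hM _ _ _ _ p0 (gam_blk0 hT) (tri_pr0 hT hZ)).2
      exact ⟨M0, k1.trans m1, e0 ▸ k2⟩)
    (fun n => by
      obtain ⟨M0, k1, k2⟩ := (hM _ _ _ _ p1 (gam_blk0 hT') (tri_pr0 hT' (a n).1)).2
      exact ⟨M0, k1.trans m2, k2⟩)
    (by
      obtain ⟨M0, k1, k2⟩ := (hM _ (fun _ => 0) _ (fun _ => -x) p2 (fun _ _ k => absurd rfl k)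
        fun _ _ _ _ => rfl).2
      exact ⟨M0, k1.trans m3, by simpa only [sub_neg_eq_add] using k2⟩)
    st.1 k0 (st_le hT st s0) s0 ((one_le_mz hT.pd).trans m1) R2 d0 d1 tl
    (st.2.trans (le_of_eq (tsum_congr fun z => by rw [e0, Sys.w, ng_eq])))
  exact ⟨n, h1, fun z => st.1 _, h2.trans (le_of_eq (tsum_congr fun z => by
    rw [eqv_eq, Sys.w, ← ng_eq]))⟩

end

end Vale.Agent.P057SH
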