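import Vale.Agent.P057SH.Cut

/-!
The frame of a primitive form.
-/

set_option linter.all false

open Matrix Finset
open scoped Real
open Vale.Agent.P267.H775 Vale.Agent.P057G Vale.Agent.P057PC Vale.Agent.P057ST Vale.Agent.P057TP
open Vale.Agent.P057MA (Ort)

namespace Vale.Agent.P057SH

noncomputable section

theorem ort_mask {ι κ A : Type} [Fintype κ] {f : ι → A} {g : κ → A} {X : Matrix ι κ ℝ}
    (h : Ort f g X) (p : A → Prop) [DecidablePred p] (v : κ → ℝ) :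
    X *ᵥ (fun b => if p (g b) then v b else 0) = fun a => if p (f a) then (X *ᵥ v) a else 0 := by
  funext a
  split_ifs with k
  · refine sum_congr rfl fun b _ => ?_
    by_cases e : X a b = 0
    · simp [e]
    · simp [← h a b e, k]
  · refine sum_eq_zero fun b _ => ?_
    by_cases e : X a b = 0
    · simp [e]
    · simp [← h a b e, k]

theorem Ort.sub {ι κ A : Type} {f : ι → A} {g : κ → A} {X Y : Matrix ι κ ℝ} (h : Ort f g X)
    (h' : Ort f g Y) : Ort f g (X - Y) := fun a b k => by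
  by_contra e
  exact k (by rw [Matrix.sub_apply, not_not.1 (mt (h a b) e), not_not.1 (mt (h' a b) e), sub_zero])

variable {T : Tow} {s j : ℕ} {k : T.ι → ℤ}

theorem ort_G (hT : T.Ok0 s) : Ort T.lv T.lv T.G := fun a b e => by_contra fun h => e (hT.blk a b h)

theorem exists_U (h1 : ∀ a, T.lv a ≠ j → k a = 0) (h2 : ∃ w, k ⬝ᵥ w = 1) :
    ∃ (U U' : Matrix T.ι T.ι ℤ) (j0 : T.ι), U * U' = 1 ∧ Ort T.lv T.lv U ∧ Ort T.lv T.lv U' ∧
      T.lv j0 = j ∧ U' j0 = k ∧ ∀ a b, T.lv a ≠ j →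
        U a b = (1 : Matrix _ _ ℤ) a b ∧ U' a b = (1 : Matrix _ _ ℤ) a b := by
  obtain ⟨w, hw⟩ := h2
  obtain ⟨U, U', u1, u2, u3, j0, g, g1, -, g3⟩ := P057MA.exists_unimod T.lv j _ k le_rfl
    (fun e => by simp [e] at hw) fun a ha => by_contra fun e => ha (h1 a e)
  have e1 : k = g • U' j0 := by
    rw [← vecMul_one k, ← u1, ← vecMul_vecMul, g3]
    funext i; simp [vecMul, dotProduct, Pi.single_apply]
  have e2 : g * g = 1 := by
    rw [e1, smul_dotProduct, smul_eq_mul] at hw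
    rcases Int.eq_one_or_neg_one_of_mul_eq_one hw with e | e <;> simp [e]
  have o1 := P057MA.ort_one (R := ℤ) T.lv
  refine ⟨of fun a b => if T.lv a = j then g * U a b else (1 : Matrix _ _ ℤ) a b,
    of fun a b => if T.lv a = j then g * U' a b else (1 : Matrix _ _ ℤ) a b, j0, ?_,
    fun a b e => ?_, fun a b e => ?_, g1, ?_, fun a b e => ⟨if_neg e, if_neg e⟩⟩
  · ext a c
    simp only [Matrix.mul_apply, of_apply]
    by_cases e : T.lv a = j
    · rw [← u1, Matrix.mul_apply]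
      refine sum_congr rfl fun b _ => ?_
      by_cases e3 : U a b = 0
      · simp [e, e3]
      · rw [if_pos e, if_pos ((u2 a b e3).symm.trans e)]
        linear_combination U a b * U' b c * e2
    · rw [sum_eq_single a (fun b _ k => by simp [e, one_apply_ne' k]) (by simp)]
      simp [e]
  · rw [of_apply] at e
    split_ifs at e
    exacts [u2 a b (right_ne_zero_of_mul e), o1 a b e]
  · rw [of_apply] at e
    split_ifs at e
    exacts [u3 a b (right_ne_zero_of_mul e), o1 a b e]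
  · funext b
    rw [e1]; exact if_pos g1

/-- the form as a matrix -/
def rw1 (k : T.ι → ℤ) : Matrix Unit T.ι ℤ := of fun _ a => k a

/-- the frame that removes the column `j0` -/
abbrev fr (U U' : Matrix T.ι T.ι ℤ) (j0 : T.ι) (h : T.lv j0 = j) : Frame T j where
  ι := {b // b ≠ j0}
  A := Unit
  lv b := T.lv b
  r := ⟨fun x => ⟨⟨x.1, fun e => x.2 (e ▸ h)⟩, x.2⟩, fun b => ⟨b.1.1, b.2⟩, fun _ => rfl,
    fun _ => rfl⟩
  L := U.submatrix id Subtype.val
  a := of fun x _ => U x j0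
  P := U'.submatrix Subtype.val id
  K := rw1 (U' j0)
  B := pj T.G (U'.submatrix Subtype.val id) (rw1 (U' j0))
  D := mR (rw1 (U' j0))
  G := g1 T.G (U.submatrix id Subtype.val)
  GA := g2 T.G (rw1 (U' j0))

variable {U U' : Matrix T.ι T.ι ℤ} {j0 : T.ι} {h0 : T.lv j0 = j}

theorem sp_fr (h : U * U' = 1) :
    Sp (fr U U' j0 h0).L (fr U U' j0 h0).a (fr U U' j0 h0).P (fr U U' j0 h0).K := by
  have u := mul_eq_one_comm.1 h
  refine ⟨?_, ?_, ?_, ?_, ?_⟩ <;> ext a b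
  · exact (congrFun (congrFun u a) b).trans (by simp [one_apply, Subtype.ext_iff])
  · exact (congrFun (congrFun u a) j0).trans (one_apply_ne a.2)
  · exact (congrFun (congrFun u j0) b).trans (one_apply_ne b.2.symm)
  · exact (congrFun (congrFun u j0) j0).trans (by simp)
  · rw [← h, Matrix.mul_apply, Fintype.sum_eq_add_sum_subtype_ne _ j0, add_comm]
    simp [Matrix.mul_apply, rw1]

theorem ok_fr (hT : T.Ok0 s) (h : U * U' = 1) (o1 : Ort T.lv T.lv U) (o2 : Ort T.lv T.lv U')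
    (h3 : ∀ a b, T.lv a ≠ j → U a b = (1 : Matrix _ _ ℤ) a b ∧ U' a b = (1 : Matrix _ _ ℤ) a b) :
    (fr U U' j0 h0).Ok := by
  have sp := sp_fr (h0 := h0) h
  have oL : Ort T.lv (fr U U' j0 h0).lv (fr U U' j0 h0).L := fun a b e => o1 a b e
  have oP : Ort (fr U U' j0 h0).lv T.lv (fr U U' j0 h0).P := fun a b e => o2 a b e
  have oK : Ort (fun _ => j) T.lv (fr U U' j0 h0).K := fun _ b e => h0.symm.trans (o2 j0 b e)
  have oG := ort_G hT
  have oE : Ort T.lv (fun _ => j) (T.G⁻¹ * (mR (rw1 (U' j0)))ᵀ * g2 T.G (rw1 (U' j0))) :=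
    ((oG.inv hT.pd.det_pos.ne'.isUnit).mul oK.mR.transpose).mul fun _ _ _ => rfl
  have cL : ∀ (x : {x // T.lv x ≠ j}) y, mR (fr U U' j0 h0).L y ((fr U U' j0 h0).r x) =
      if y = x.1 then 1 else 0 := fun x y => by
    change ((U y x : ℤ) : ℝ) = _
    by_cases e : T.lv y = j
    · rw [not_not.1 (mt (o1 y x) fun k => x.2 (k.symm.trans e)), if_neg fun k : y = x => x.2 (k ▸ e)]
      simp
    · simp [(h3 y x e).1, one_apply]
  refine ⟨oL, fun a _ e => (o1 a j0 e).trans h0, oP, oK,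
    oP.mR.mul (Ort.sub (P057MA.ort_one _) (oE.mul oK.mR)), oK.mR,
    (oL.mR.transpose.mul oG).mul oL.mR, fun _ => rfl, fun x b => ?_, fun x y => ?_, fun x y => ?_,
    sp.dec, sp.ML, sp.BA, sp.MA, sp.BL, sp.pjL _, sp.real.BA, Or.inr sp.real.BL, sp.qq_eq hT.pd,
    sp.pd1 hT.pd, sp.pd2 hT.pd⟩
  · exact (h3 x b x.2).1.trans (by simp [one_apply, Subtype.ext_iff, eq_comm])
  · change ∑ c, ((U' x c : ℤ) : ℝ) * _ = _
    rw [sum_eq_single x.1 (fun b _ k => by simp [(h3 x _ x.2).2, one_apply_ne' k]) (by simp),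
      (h3 x _ x.2).2, Matrix.sub_apply, Matrix.mul_apply, sum_eq_zero fun u _ =>
      mul_eq_zero_of_left (not_not.1 (mt (oE x u) x.2)) _]
    simp [one_apply, eq_comm]
  · simp only [g1, Matrix.mul_apply, transpose_apply, cL]
    simp

theorem rw1_mul (k : T.ι → ℤ) (v : T.ι → ℝ) : mR (rw1 k) *ᵥ v = fun _ => toR k ⬝ᵥ v := rfl

theorem qq_unit (G : Matrix Unit Unit ℝ) (t : Unit → ℝ) : qq G t = G () () * t () ^ 2 := by
  simp [qq, mulVec, dotProduct]; ring

theorem g2_eq (k : T.ι → ℤ) : g2 T.G (rw1 k) () () = (qq T.G⁻¹ (toR k))⁻¹ := by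
  rw [g2, inv_subsingleton, diagonal_apply_eq, Ring.inverse_eq_inv', Matrix.mul_assoc]; rfl

theorem g2_ge (hT : T.G.PosDef) (hk : k ≠ 0) {K : ℝ}
    (h : ∀ v : T.ι → ℝ, (toR k ⬝ᵥ v) ^ 2 ≤ K * qq T.G v) : K⁻¹ ≤ g2 T.G (rw1 k) () () := by
  have h1 := P057MA.qq_pos hT.inv (P057MA.toR_ne hk)
  have h2 := h (T.G⁻¹ *ᵥ toR k)
  rw [qq_inv hT] at h2
  rw [g2_eq]
  exact inv_anti₀ h1 (le_of_mul_le_mul_right ((sq _).symm.trans_le h2) h1)

theorem g2_le (hT : T.G.PosDef) (hk : k ≠ 0) (h1 : ∀ a, T.lv a ≠ j → k a = 0) :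
    g2 T.G (rw1 k) () () ≤ ms (bk T.G fun a => T.lv a = j) (fun _ => 0) ^ 2 := by
  have hB := posDef_bk hT fun a => T.lv a = j
  have e1 : P057TE.ez _ (rs (fun a => T.lv a = j) k) = k := funext fun a => by
    unfold P057TE.ez; split_ifs with e; exacts [rfl, (h1 a e).symm]
  have k0 : rs (fun a => T.lv a = j) k ≠ 0 := fun e => hk (by
    rw [← e1, e]; funext a; simp [P057TE.ez])
  have h2 := P057MA.one_le_mul_th hB.inv k0
  have h3 := P057MA.qq_pos hB.inv (P057MA.toR_ne k0)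
  have h4 := dot_sq_le hT (P057TE.ez _ ((bk T.G fun a => T.lv a = j)⁻¹ *ᵥ
    toR (rs (fun a => T.lv a = j) k))) (toR k)
  rw [P057TE.qq_ez, qq_inv hB, dotProduct_comm, P057TE.dot_ez] at h4
  have h5 := le_of_mul_le_mul_left ((sq _).symm.trans_le h4) h3
  rw [g2_eq, ms_zero hB]
  refine (inv_anti₀ h3 h5).trans ?_
  rw [inv_le_iff_one_le_mul₀' h3, ← Real.sq_sqrt h3.le, ← mul_pow]
  exact one_le_pow₀ h2

end

end Vale.Agent.P057SH
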