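import Vale.Agent.P057MA.Sheet
import Mathlib.Data.Matrix.ColumnRowPartitioned

/-!
Unimodular splittings of a lattice and the factorisation of Gaussians along them.
-/

set_option linter.all false

open Matrix Finset
open scoped Real
open Vale.Agent.P267.H775 Vale.Agent.P057G Vale.Agent.P057PC Vale.Agent.P057ST

namespace Vale.Agent.P057SH

noncomputable section

variable {ι κ K : Type} [Fintype ι] [Fintype κ] [Fintype K] [DecidableEq ι] [DecidableEq κ]
  [DecidableEq K]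

/-- `[L A]` and `[M; B]` are inverse to each other -/
structure Sp {R : Type} [CommRing R] (L : Matrix ι κ R) (A : Matrix ι K R) (M : Matrix κ ι R)
    (B : Matrix K ι R) : Prop where
  ML : M * L = 1
  MA : M * A = 0
  BL : B * L = 0
  BA : B * A = 1
  dec : L * M + A * B = 1

theorem mR_add (S U : Matrix ι κ ℤ) : mR (S + U) = mR S + mR U := by
  ext i j; simp [mR]

theorem mR_zero : mR (0 : Matrix ι κ ℤ) = 0 := by ext i j; simp [mR]

theorem mR_tr (S : Matrix ι κ ℤ) : mR Sᵀ = (mR S)ᵀ := rfl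

variable {L : Matrix ι κ ℤ} {A : Matrix ι K ℤ} {M : Matrix κ ι ℤ} {B : Matrix K ι ℤ}
  {G : Matrix ι ι ℝ}

theorem Sp.real (h : Sp L A M B) : Sp (mR L) (mR A) (mR M) (mR B) :=
  ⟨by rw [← mR_mul, h.ML, mR_one], by rw [← mR_mul, h.MA, mR_zero],
    by rw [← mR_mul, h.BL, mR_zero], by rw [← mR_mul, h.BA, mR_one],
    by rw [← mR_mul, ← mR_mul, ← mR_add, h.dec, mR_one]⟩

theorem inj_of_mul {R : Type} [CommRing R] {X : Matrix κ ι R} {Y : Matrix ι κ R} (h : X * Y = 1) :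
    Function.Injective Y.mulVec := fun x y e => by
  have := congrArg X.mulVec e
  simpa only [mulVec_mulVec, h, one_mulVec] using this

/-- the Gram matrix on the sheets -/
def g1 (G : Matrix ι ι ℝ) (L : Matrix ι κ ℤ) : Matrix κ κ ℝ := (mR L)ᵀ * G * mR L

/-- the Gram matrix transverse to the sheets -/
def g2 (G : Matrix ι ι ℝ) (B : Matrix K ι ℤ) : Matrix K K ℝ := (mR B * G⁻¹ * (mR B)ᵀ)⁻¹

/-- the orthogonal projection to the sheet -/
def pj (G : Matrix ι ι ℝ) (M : Matrix κ ι ℤ) (B : Matrix K ι ℤ) : Matrix κ ι ℝ :=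
  mR M * (1 - G⁻¹ * (mR B)ᵀ * g2 G B * mR B)

theorem Sp.pd1 (h : Sp L A M B) (hG : G.PosDef) : (g1 G L).PosDef :=
  posDef_conj hG _ (inj_of_mul h.real.ML)

theorem Sp.injB (h : Sp L A M B) : Function.Injective (mR Bᵀ).mulVec :=
  inj_of_mul (X := (mR A)ᵀ) (by rw [mR_tr, ← transpose_mul, h.real.BA, transpose_one])

theorem Sp.pd0 (h : Sp L A M B) (hG : G.PosDef) : (mR B * G⁻¹ * (mR B)ᵀ).PosDef :=
  posDef_conj hG.inv _ h.injB

theorem Sp.pd2 (h : Sp L A M B) (hG : G.PosDef) : (g2 G B).PosDef := (h.pd0 hG).inv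

theorem Sp.inv2 (h : Sp L A M B) (hG : G.PosDef) : (g2 G B)⁻¹ = mR B * G⁻¹ * (mR B)ᵀ :=
  nonsing_inv_nonsing_inv _ (h.pd0 hG).det_pos.ne'.isUnit

theorem Sp.pjL (h : Sp L A M B) (G : Matrix ι ι ℝ) : pj G M B * mR L = 1 := by
  rw [pj, Matrix.mul_assoc, Matrix.sub_mul, Matrix.mul_assoc, h.real.BL, Matrix.mul_zero, sub_zero,
    Matrix.one_mul, h.real.ML]

theorem Sp.Lpj (h : Sp L A M B) (hG : G.PosDef) :
    mR L * pj G M B = 1 - G⁻¹ * (mR B)ᵀ * g2 G B * mR B := by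
  have h1 : mR B * (1 - G⁻¹ * (mR B)ᵀ * g2 G B * mR B) = 0 := by
    rw [Matrix.mul_sub, Matrix.mul_one, ← Matrix.mul_assoc, ← Matrix.mul_assoc,
      ← Matrix.mul_assoc, g2, mul_nonsing_inv _ (h.pd0 hG).det_pos.ne'.isUnit, Matrix.one_mul,
      sub_self]
  rw [pj, ← Matrix.mul_assoc, eq_sub_of_add_eq h.real.dec, Matrix.sub_mul, Matrix.mul_assoc (mR A),
    h1, Matrix.mul_zero, sub_zero, Matrix.one_mul]

/-- Pythagoras along the splitting -/
theorem Sp.qq_eq (h : Sp L A M B) (hG : G.PosDef) (v : ι → ℝ) :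
    qq G v = qq (g1 G L) (pj G M B *ᵥ v) + qq (g2 G B) (mR B *ᵥ v) := by
  set t := (mR B)ᵀ *ᵥ (g2 G B *ᵥ (mR B *ᵥ v)) with ht
  have h1 : v = mR L *ᵥ (pj G M B *ᵥ v) + G⁻¹ *ᵥ t := by
    rw [mulVec_mulVec, h.Lpj hG, sub_mulVec, one_mulVec, ht]
    simp only [mulVec_mulVec, Matrix.mul_assoc, sub_add_cancel]
  have h2 : qq G⁻¹ t = qq (g2 G B) (mR B *ᵥ v) := by
    rw [ht, g2, ← qq_inv (h.pd0 hG), ← qq_conj]; rfl
  conv_lhs => rw [h1]
  rw [qq_add hG.1, bb_inv hG, qq_inv hG, h2, g1, qq_conj, ht, dotProduct_mulVec,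
    vecMul_transpose, mulVec_mulVec _ (mR B) (mR L), h.real.BL, zero_mulVec, zero_dotProduct]
  ring

theorem Sp.det_conj (h : Sp L A M B) (G : Matrix ι ι ℝ) :
    ((fromCols (mR L) (mR A))ᵀ * G * fromCols (mR L) (mR A)).det = G.det := by
  have h1 : fromCols L A * fromRows M B = 1 := by rw [fromCols_mul_fromRows, h.dec]
  have h2 : fromRows M B * fromCols L A = 1 := by
    rw [fromRows_mul_fromCols, h.ML, h.MA, h.BL, h.BA, fromBlocks_one]
  have h3 := trace_mul_comm (fromCols L A) (fromRows M B)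
  rw [h1, h2, trace_one, trace_one, Nat.cast_inj] at h3
  obtain ⟨e⟩ := Fintype.card_eq.1 h3
  have h4 : (fromCols L A).submatrix id e * (fromRows M B).submatrix e id = 1 := by
    rw [submatrix_mul_equiv, h1]; rfl
  have h6 : ((fromCols L A).submatrix id e).det * ((fromCols L A).submatrix id e).det = 1 := by
    have h7 := congrArg det h4
    rw [det_mul, det_one] at h7
    rcases Int.eq_one_or_neg_one_of_mul_eq_one h7 with k | k <;> simp [k]
  have h8 : ((fromCols (mR L) (mR A))ᵀ * G * fromCols (mR L) (mR A)).submatrix e e =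
      (mR ((fromCols L A).submatrix id e))ᵀ * G * mR ((fromCols L A).submatrix id e) := by
    have : fromCols (mR L) (mR A) = mR (fromCols L A) := by ext i (j | j) <;> rfl
    rw [this]; rfl
  rw [← det_submatrix_equiv_self e, h8, det_mul, det_mul, det_transpose,
    show (mR ((fromCols L A).submatrix id e)).det = _ from (Int.cast_det _).symm]
  have : (((fromCols L A).submatrix id e).det : ℝ) * ((fromCols L A).submatrix id e).det = 1 := by
    exact_mod_cast h6
  linear_combination G.det * this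

/-- the covolume of the sheet -/
theorem Sp.det_eq (h : Sp L A M B) (hG : G.PosDef) :
    (g1 G L).det = G.det * (mR B * G⁻¹ * (mR B)ᵀ).det := by
  have h1 : fromCols (mR L) (mR A) * fromBlocks 1 (mR M * G⁻¹ * (mR B)ᵀ) 0 (mR B * G⁻¹ * (mR B)ᵀ) =
      fromCols (mR L) (G⁻¹ * (mR B)ᵀ) := by
    rw [fromCols_mul_fromBlocks, Matrix.mul_one, Matrix.mul_zero, add_zero]
    simp only [← Matrix.mul_assoc, ← Matrix.add_mul, h.real.dec, Matrix.one_mul]
  have h2 : (fromCols (mR L) (mR A))ᵀ * G * fromCols (mR L) (mR A) *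
      fromBlocks 1 (mR M * G⁻¹ * (mR B)ᵀ) 0 (mR B * G⁻¹ * (mR B)ᵀ) =
      fromBlocks (g1 G L) 0 ((mR A)ᵀ * G * mR L) 1 := by
    rw [Matrix.mul_assoc, h1, Matrix.mul_assoc, mul_fromCols, ← Matrix.mul_assoc G,
      mul_nonsing_inv _ hG.det_pos.ne'.isUnit, Matrix.one_mul, transpose_fromCols,
      fromRows_mul_fromCols, ← transpose_mul, ← transpose_mul, h.real.BL, h.real.BA, transpose_zero,
      transpose_one, g1, Matrix.mul_assoc, Matrix.mul_assoc]
  have h3 := congrArg det h2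
  rw [det_mul, h.det_conj, det_fromBlocks_zero₂₁, det_fromBlocks_zero₁₂, det_one, det_one, one_mul,
    mul_one] at h3
  exact h3.symm

theorem Sp.vol_eq (h : Sp L A M B) (hG : G.PosDef) : vol G = vol (g1 G L) * vol (g2 G B) := by
  have h1 := Real.sqrt_pos.2 (h.pd0 hG).det_pos
  rw [g2, vol_inv, vol, vol, vol, h.det_eq hG, Real.sqrt_mul hG.det_pos.le]
  field_simp

theorem Sp.ng_eq (h : Sp L A M B) (hG : G.PosDef) (v : ι → ℝ) :
    ng G v = ng (g1 G L) (pj G M B *ᵥ v) * ng (g2 G B) (mR B *ᵥ v) := by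
  unfold ng gs
  rw [h.qq_eq hG v, h.vol_eq hG, div_mul_div_comm, ← Real.exp_add]
  congr 2; ring

/-- the weights of the sheets sum to at most the dual theta value -/
theorem Sp.ms_le (h : Sp L A M B) (hG : G.PosDef) :
    ms (g2 G B) (fun _ => 0) ≤ ms G fun _ => 0 := by
  rw [ms_zero (h.pd2 hG), ms_zero hG, h.inv2 hG]
  exact P057MA.th_conj_le hG.inv Bᵀ h.injB

/-- the decomposition of the lattice into sheets -/
def Sp.eqv (h : Sp L A M B) : (K → ℤ) × (κ → ℤ) ≃ (ι → ℤ) where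
  toFun x := L *ᵥ x.2 + A *ᵥ x.1
  invFun z := (B *ᵥ z, M *ᵥ z)
  left_inv x := by
    simp only [mulVec_add, mulVec_mulVec, h.ML, h.MA, h.BL, h.BA, one_mulVec, zero_mulVec,
      add_zero, zero_add]
  right_inv z := by simp only [mulVec_mulVec, ← add_mulVec, h.dec, one_mulVec]

end

end Vale.Agent.P057SH
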