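import Vale.Agent.P057SH.Mass

/-!
Small shifts of the centres on the bulk; the choice of a sheet.
-/

set_option linter.all false

open Matrix Finset
open scoped Real
open Vale.Agent.P267.H775 Vale.Agent.P057G Vale.Agent.P057PC

namespace Vale.Agent.P057SH

noncomputable section

variable {L : Type} [Fintype L] [DecidableEq L] {lv : L → ℕ} {G : Matrix L L ℝ}
  {p p0 : (L → ℤ) → L → ℝ}

omit [DecidableEq L] in
theorem qq_add_le (hG : G.PosDef) (x y : L → ℝ) : qq G (x + y) ≤ 2 * qq G x + 2 * qq G y := by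
  linarith [qq_add hG.1 x y, qq_sub hG.1 x y, qq_nonneg hG.posSemidef (x - y)]

theorem ng_shift (hG : G.PosDef) {u d : L → ℝ} {ρ ε : ℝ} (h1 : 1 ≤ ρ) (h0 : 0 ≤ ε)
    (h2 : 12 * (ρ * ε) ≤ 1) (hu : qq G u ≤ ρ ^ 2) (hd : qq G d ≤ ε ^ 2) :
    |ng G u - ng G (u - d)| ≤ 24 * (ρ * ε) * ng G (u - d) := by
  have h3 : |bb G u d| ≤ ρ * ε := abs_le_of_sq_le_sq' (by
    rw [mul_pow]
    exact (bb_sq_le hG.posSemidef u d).trans
      (mul_le_mul hu hd (qq_nonneg hG.posSemidef _) (sq_nonneg _))) (by positivity) |> abs_le.2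
  have h4 : |π * qq G d - 2 * π * bb G u d| ≤ 12 * (ρ * ε) := by
    have a1 := qq_nonneg hG.posSemidef d
    have a2 : qq G d ≤ ρ * ε := by nlinarith
    have a3 := abs_le.1 h3
    have a4 := Real.pi_le_four
    have a5 := Real.pi_pos
    rw [abs_le]; constructor <;> nlinarith
  have h5 : ng G u = Real.exp (π * qq G d - 2 * π * bb G u d) * ng G (u - d) := by
    rw [ng, ng, gs_sub_eq hG.1, ← mul_div_assoc, mul_left_comm, ← Real.exp_add]
    simp
  rw [h5, ← sub_one_mul, abs_mul, abs_of_nonneg (ng_nonneg _ _)]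
  refine mul_le_mul_of_nonneg_right ((Real.abs_exp_sub_one_le (h4.trans h2)).trans ?_)
    (ng_nonneg _ _)
  linarith

/-- a signed weighted sum survives a small shift of the centres -/
theorem shift_le (hG : G.PosDef) (ho : ∀ l l', lv l ≠ lv l' → G l l' = 0) (hp : Tri lv p)
    (hp0 : Tri lv p0) {v H : (L → ℤ) → ℝ} {χ : (L → ℤ) → Prop} [DecidablePred χ]
    {V B κ κ' ρ ε : ℝ} (hv : ∀ z, 0 ≤ v z ∧ v z ≤ V) (hH : ∀ z, |H z| ≤ B) (k0 : 0 ≤ κ')
    (k1 : κ ≤ B) (h1 : 1 ≤ ρ) (h0 : 0 ≤ ε) (h2 : 12 * (ρ * ε) ≤ 1)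
    (h3 : 48 * (ρ * ε) * B ≤ κ - κ')
    (hd : ∀ z, qq G (toR z - p z) ≤ ρ ^ 2 ∨ qq G (toR z - p0 z) ≤ ρ ^ 2 →
      qq G (p z - p0 z) ≤ ε ^ 2) (hχ : ∀ z, qq G (toR z - p0 z) ≤ ρ ^ 2 → χ z) :
    ∑' z, ng G (toR z - p z) * (v z * (H z - κ)) -
        4 * (V * B) * Real.exp (Fintype.card L - ρ ^ 2 / 4) * ms G (fun _ => 0) ≤
      ∑' z, ng G (toR z - p0 z) * if χ z then v z * (H z - κ') else 0 := by
  have hB : 0 ≤ B := (abs_nonneg _).trans (hH 0)
  have hV : 0 ≤ V := (hv 0).1.trans (hv 0).2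
  have k2 : κ' ≤ κ := by nlinarith [mul_nonneg (mul_nonneg (by linarith : 0 ≤ ρ) h0) hB]
  have b1 : ∀ k, 0 ≤ k → k ≤ B → ∀ z, |v z * (H z - k)| ≤ 2 * (V * B) := fun k a b z => by
    have := abs_le.1 (hH z)
    rw [abs_mul, abs_of_nonneg (hv z).1, mul_left_comm]
    exact mul_le_mul (hv z).2 (abs_le.2 ⟨by linarith, by linarith⟩) (abs_nonneg _) hV
  have hC : 0 ≤ 2 * (V * B) := by positivity
  set f : (L → ℤ) → ℝ := fun z => if qq G (toR z - p0 z) ≤ ρ ^ 2 then 0 else 2 * (V * B)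
  have b2 : ∀ z, |f z| ≤ 2 * (V * B) := fun z => by
    simp only [f]; split_ifs <;> simp [abs_of_nonneg hC, hC]
  have b3 : ∀ z, |if χ z then v z * (H z - κ') else 0| ≤ 2 * (V * B) := fun z => by
    split_ifs
    exacts [b1 _ k0 (k2.trans k1) z, by simpa using hC]
  have e1 : ε ≤ 1 / 12 := by nlinarith
  have t1 := tail_le hG ho hp (ρ ^ 2 / 4) hC b2 fun z hz => if_pos (by
    have := qq_add_le hG (toR z - p z) (p z - p0 z)
    rw [sub_add_sub_cancel] at this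
    nlinarith [hd z (Or.inl (by nlinarith))])
  have t2 := tail_le hG ho hp0 (ρ ^ 2 / 4) hC b2 fun z hz => if_pos (by nlinarith)
  have s : ∀ {q}, Tri lv q → ∀ {g : (L → ℤ) → ℝ}, (∀ z, |g z| ≤ 2 * (V * B)) →
      HasSum (fun z => ng G (toR z - q z) * g z) (∑' z, ng G (toR z - q z) * g z) :=
    fun hq _ hg => (summable_mul_real (summable_ng hq hG) (fun _ => ng_nonneg _ _) hg).hasSum
  have := hasSum_le (fun z => ?_) (((s hp (b1 _ (k0.trans k2) k1)).sub (s hp b2)).sub (s hp0 b2))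
    (s hp0 b3)
  · linarith [(abs_le.1 t1).2, (abs_le.1 t2).2]
  have n1 := ng_nonneg G (toR z - p z)
  have n2 := ng_nonneg G (toR z - p0 z)
  by_cases hz : qq G (toR z - p0 z) ≤ ρ ^ 2
  · have a1 := ng_shift hG h1 h0 h2 hz (hd z (Or.inr hz))
    rw [sub_sub_sub_cancel_right] at a1
    have a2 : |(ng G (toR z - p0 z) - ng G (toR z - p z)) * (H z - κ')| ≤
        24 * (ρ * ε) * ng G (toR z - p z) * (2 * B) := by
      have := abs_le.1 (hH z)
      rw [abs_mul]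
      exact mul_le_mul a1 (abs_le.2 ⟨by linarith, by linarith⟩) (abs_nonneg _)
        ((abs_nonneg _).trans a1)
    simp only [f, if_pos hz, if_pos (hχ z hz), mul_zero, sub_zero]
    rw [mul_left_comm, mul_left_comm (ng G _)]
    refine mul_le_mul_of_nonneg_left ?_ (hv z).1
    nlinarith [(abs_le.1 a2).1, mul_le_mul_of_nonneg_left h3 n1]
  · simp only [f, if_neg hz]
    nlinarith [mul_le_mul_of_nonneg_left (abs_le.1 (b1 _ (k0.trans k2) k1 z)).2 n1,
      mul_le_mul_of_nonneg_left (abs_le.1 (b3 z)).1 n2]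

/-- one fibre is at least as good as the weighted mean -/
theorem exists_fib {A Ω : Type} {F : A × Ω → ℝ} (hF : Summable F) {g a : A → ℝ} (hg : Summable g)
    (h0 : ∀ n, 0 ≤ g n) (h : ∀ n, ∑' z, F (n, z) = g n * a n) {τ : ℝ}
    (hτ : (∑' n, g n) * τ < ∑' x, F x) : ∃ n, τ < a n := by
  by_contra hc
  push Not at hc
  refine hτ.not_ge (hasSum_le (fun n => ?_)
    (hF.hasSum.prod_fiberwise fun n => (hF.prod_factor n).hasSum) (hg.hasSum.mul_right τ))
  rw [h]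
  exact mul_le_mul_of_nonneg_left (hc n) (h0 n)

end

end Vale.Agent.P057SH
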